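import Vale.Agent.P196.H83.PBA
import Vale.Agent.P196.H798.AltHom

/-!
Event calculus (P196, block A2), part 5: the homomorphism of an event.
-/

open Equiv Equiv.Perm Finset

namespace Vale.Agent.P196.Ev

variable {ι : Type*} [DecidableEq ι] [Fintype ι] {G : Type*} [Group G] {Φ : Floors ι G}

/-- Induction principle for the alternating group. -/
lemma alt_induction {P : alternatingGroup ι → Prop} (h1 : P 1)
    (h3 : ∀ (σ : Perm ι) (h : σ.IsThreeCycle), P ⟨σ, h.mem_alternatingGroup⟩)
    (hm : ∀ v w, P v → P w → P (v * w)) (w : alternatingGroup ι) : P w := by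
  obtain ⟨w, hw⟩ := w
  have hw' := hw
  rw [← closure_three_cycles_eq_alternating] at hw'
  have key : ∀ (x : Perm ι) (_ : x ∈ Subgroup.closure {σ : Perm ι | σ.IsThreeCycle}),
      ∃ hx : x ∈ alternatingGroup ι, P ⟨x, hx⟩ ∧ ∃ hx' : x⁻¹ ∈ alternatingGroup ι, P ⟨x⁻¹, hx'⟩ := by
    intro x hx
    induction hx using Subgroup.closure_induction with
    | mem x hx =>
      exact ⟨IsThreeCycle.mem_alternatingGroup hx, h3 x hx,
        (IsThreeCycle.inv hx).mem_alternatingGroup, h3 _ (IsThreeCycle.inv hx)⟩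
    | one => exact ⟨one_mem _, h1, by rw [inv_one]; exact one_mem _, by
        have e : (⟨1⁻¹, by rw [inv_one]; exact one_mem _⟩ : alternatingGroup ι) = 1 :=
          Subtype.ext inv_one
        rw [e]; exact h1⟩
    | mul x y _ _ hx hy =>
      obtain ⟨a1, a2, a3, a4⟩ := hx
      obtain ⟨b1, b2, b3, b4⟩ := hy
      refine ⟨mul_mem a1 b1, hm _ _ a2 b2, inv_mem (mul_mem a1 b1), ?_⟩
      have := hm _ _ b4 a4
      have e : (⟨(x * y)⁻¹, inv_mem (mul_mem a1 b1)⟩ : alternatingGroup ι)
        = ⟨y⁻¹, b3⟩ * ⟨x⁻¹, a3⟩ := Subtype.ext (mul_inv_rev x y)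
      rw [e]; exact this
    | inv x _ hx =>
      obtain ⟨a1, a2, a3, a4⟩ := hx
      refine ⟨a3, a4, by rw [inv_inv]; exact a1, ?_⟩
      simpa using a2
  obtain ⟨_, h, _⟩ := key w hw'
  exact h

lemma hom_ext_three {M : Type*} [Monoid M] {f g : alternatingGroup ι →* M}
    (h : ∀ (σ : Perm ι) (h : σ.IsThreeCycle),
      f ⟨σ, h.mem_alternatingGroup⟩ = g ⟨σ, h.mem_alternatingGroup⟩) : f = g := by
  ext w
  induction w using alt_induction with
  | h1 => simp
  | h3 σ hσ => exact h σ hσ
  | hm v w hv hw => rw [map_mul, map_mul, hv, hw]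

lemma c3_eq_cyc {a b c : ι} (hab : a ≠ b) (hac : a ≠ c) (hbc : b ≠ c) :
    H798.c3 a b c = cyc a b c := by
  ext x
  by_cases h1 : x = a
  · subst h1
    rw [H798.c3_apply_left hac hab, cyc_a hab hbc]
  by_cases h2 : x = b
  · subst h2
    rw [H798.c3_apply_mid hac hbc, cyc_b]
  by_cases h3 : x = c
  · subst h3
    rw [H798.c3_apply_right, cyc_c hac hbc]
  rw [H798.c3_apply_of_ne h1 h2 h3, cyc_of_ne h1 h2 h3]

lemma Event.exists_hom (E : Event Φ) : ∃ f : alternatingGroup ι →* G,
    ∀ (σ : Perm ι) (h : σ.IsThreeCycle), f ⟨σ, h.mem_alternatingGroup⟩ = E σ := by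
  have hcard := Φ.card
  have : Nontrivial ι := Fintype.one_lt_card_iff_nontrivial.mp (by omega)
  have h3 : ∀ a b c : ι, a ≠ b → a ≠ c → b ≠ c → (H798.c3 a b c).IsThreeCycle := by
    intro a b c hab hac hbc
    rw [c3_eq_cyc hab hac hbc]; exact cyc_three hab hac hbc
  obtain ⟨f, hf⟩ := H798.exists_alt_hom_of_R (fun a b c => E (H798.c3 a b c))
    (fun a b c hab hac hbc => by
      show E _ = E _
      rw [H798.c3_rotate hab hac hbc])
    (fun a b c hab hac hbc => by
      show E _ = (E _)⁻¹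
      rw [← E.inv (h3 a b c hab hac hbc), H798.c3_inv hab hac hbc])
    (fun a b c hab hac hbc => by
      have hσ := h3 a b c hab hac hbc
      show E _ ^ 3 = 1
      rw [pow_succ, pow_two, E.mul _ _ hσ hσ hσ.isThreeCycle_sq, sq_eq_inv hσ, E.inv hσ]
      simp)
    (fun a b c d hab hac had hbc hbd hcd => by
      have e := H798.c3_R hab hac had hbc hbd hcd
      show E _ * E _ = E _
      rw [E.mul _ _ (h3 a b c hab hac hbc) (h3 a c d hac had hcd)
        (by rw [e]; exact h3 b c d hbc hbd hcd), e])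
  refine ⟨f, fun σ hσ => ?_⟩
  obtain ⟨a, b, c, hab, hac, hbc, rfl⟩ := exists_cyc hσ
  have h := hf a b c hab hac hbc
  have e : H798.C a b c = ⟨cyc a b c, hσ.mem_alternatingGroup⟩ :=
    Subtype.ext (by rw [H798.coe_C hab hbc, c3_eq_cyc hab hac hbc])
  rw [← e, h]
  show E _ = E _
  rw [c3_eq_cyc hab hac hbc]

/-- The homomorphism of an event. -/
noncomputable def Event.toHom (E : Event Φ) : alternatingGroup ι →* G := E.exists_hom.choose

lemma toHom_three (E : Event Φ) {σ : Perm ι} (h : σ.IsThreeCycle) :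
    E.toHom ⟨σ, h.mem_alternatingGroup⟩ = E σ := E.exists_hom.choose_spec σ h

lemma toHom_injective {E F : Event Φ} (h : E.toHom = F.toHom) : E = F := by
  ext σ hσ
  rw [← toHom_three E hσ, ← toHom_three F hσ, h]

lemma toHom_comm {E F : Event Φ} (h : Perp E F) (v w : alternatingGroup ι) :
    E.toHom v * F.toHom w = F.toHom w * E.toHom v := by
  induction v using alt_induction with
  | h1 => simp
  | h3 σ hσ =>
    induction w using alt_induction with
    | h1 => simp
    | h3 τ hτ => rw [toHom_three E hσ, toHom_three F hτ]; exact h σ τ hσ hτ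
    | hm v w hv hw => rw [map_mul, ← mul_assoc, hv, mul_assoc, hw, mul_assoc]
  | hm v w hv hw => rw [map_mul, mul_assoc, hw, ← mul_assoc, hv, mul_assoc]

lemma toHom_add {E F : Event Φ} (h : Perp E F) (w : alternatingGroup ι) :
    (Event.add E F h).toHom w = E.toHom w * F.toHom w := by
  induction w using alt_induction with
  | h1 => simp
  | h3 σ hσ => rw [toHom_three _ hσ, toHom_three _ hσ, toHom_three _ hσ]; rfl
  | hm v w hv hw =>
    rw [map_mul, map_mul, map_mul, hv, hw]
    have := toHom_comm h w v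
    calc E.toHom v * F.toHom v * (E.toHom w * F.toHom w)
        = E.toHom v * (F.toHom v * E.toHom w) * F.toHom w := by group
      _ = E.toHom v * (E.toHom w * F.toHom v) * F.toHom w := by rw [this]
      _ = _ := by group

lemma toHom_zero (w : alternatingGroup ι) : (Event.zero : Event Φ).toHom w = 1 := by
  have : (Event.zero : Event Φ).toHom = 1 := by
    apply hom_ext_three
    intro σ hσ
    rw [toHom_three _ hσ]; rfl
  rw [this]; rfl

lemma toHom_const (w : alternatingGroup ι) : (Event.const : Event Φ).toHom w = Φ.c w := by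
  induction w using alt_induction with
  | h1 => simp [c_one]
  | h3 σ hσ => rw [toHom_three _ hσ, const_apply hσ]
  | hm v w hv hw => rw [map_mul, hv, hw, Subgroup.coe_mul, Φ.c_mul _ v.2 _ w.2]

/-- Relabelling by the constants. -/
lemma toHom_conj_c (E : Event Φ) (v w : alternatingGroup ι) :
    Φ.c v * E.toHom w * (Φ.c v)⁻¹ = E.toHom (v * w * v⁻¹) := by
  induction w using alt_induction with
  | h1 => simp
  | h3 σ hσ =>
    have h : (v * ⟨σ, hσ.mem_alternatingGroup⟩ * v⁻¹ : alternatingGroup ι)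
      = ⟨v * σ * (v : Perm ι)⁻¹, (IsThreeCycle.conj hσ v).mem_alternatingGroup⟩ := rfl
    rw [h, toHom_three E (IsThreeCycle.conj hσ v), toHom_three E hσ]
    exact E.equiv v v.2 σ hσ
  | hm x y hx hy =>
    have e : v * (x * y) * v⁻¹ = (v * x * v⁻¹) * (v * y * v⁻¹) := by group
    rw [e, map_mul, map_mul, ← hx, ← hy]; group

lemma toHom_le {E K : Event Φ} (h : Le E K) (v w : alternatingGroup ι) :
    K.toHom v * E.toHom w * (K.toHom v)⁻¹ = E.toHom (v * w * v⁻¹) := by
  induction v using alt_induction generalizing w with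
  | h1 => simp
  | h3 σ hσ =>
    rw [toHom_three K hσ]
    induction w using alt_induction with
    | h1 => simp
    | h3 τ hτ =>
      have e : (⟨σ, hσ.mem_alternatingGroup⟩ * ⟨τ, hτ.mem_alternatingGroup⟩ *
        ⟨σ, hσ.mem_alternatingGroup⟩⁻¹ : alternatingGroup ι)
        = ⟨σ * τ * σ⁻¹, (IsThreeCycle.conj hτ σ).mem_alternatingGroup⟩ := rfl
      rw [e, toHom_three E (IsThreeCycle.conj hτ σ), toHom_three E hτ]
      exact h σ τ hσ hτ
    | hm x y hx hy =>
      set v : alternatingGroup ι := ⟨σ, hσ.mem_alternatingGroup⟩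
      have e : v * (x * y) * v⁻¹ = (v * x * v⁻¹) * (v * y * v⁻¹) := by group
      rw [e, map_mul, map_mul, ← hx, ← hy]; group
  | hm x y hx hy =>
    have e : x * y * w * (x * y)⁻¹ = x * (y * w * y⁻¹) * x⁻¹ := by group
    rw [e, ← hx, ← hy, map_mul]; group

lemma toHom_compl (E : Event Φ) (w : alternatingGroup ι) :
    E.toHom w * E.compl.toHom w = Φ.c w := by
  rw [← toHom_add (perp_compl E), ← toHom_const (Φ := Φ)]
  congr 2
  ext σ hσ
  rw [add_apply, compl_apply _ hσ, const_apply hσ]; group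

lemma toHom_splits {E F T T' : Event Φ} (h : Splits E F T T') (w : alternatingGroup ι) :
    E.toHom w = T.toHom w * T'.toHom w := by
  rw [← toHom_add h.perp]
  congr 2
  ext σ hσ
  rw [add_apply, h.eq σ hσ]

/-- Support of the values. -/
lemma toHom_mem (E : Event Φ) {a b c : ι} (hab : a ≠ b) (hac : a ≠ c) (hbc : b ≠ c)
    {I : Finset ι} (h : {a, b, c} ⊆ I) (h5 : 5 ≤ I.card) :
    E (cyc a b c) ∈ Φ.S I :=
  E.supp _ (cyc_three hab hac hbc) I (by rwa [cyc_support hab hac hbc]) h5

end Vale.Agent.P196.Ev
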