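import Vale.Agent.P196.H83.Hom

/-!
Event calculus (P196, block A2), part 6: translations of events by floorwise translations.
-/

open Equiv Equiv.Perm Finset

namespace Vale.Agent.P196.Ev

variable {ι : Type*} [DecidableEq ι] [Fintype ι] {G : Type*} [Group G]

/-- Floorwise translations: `d w` translates the floor `i` by `w i` (`w` of sum zero). -/
structure Shifts (Φ : Floors ι G) (V : Type*) [AddCommGroup V] where
  d : (ι → V) → G
  d_add : ∀ w w' : ι → V, ∑ i, w i = 0 → ∑ i, w' i = 0 → d (w + w') = d w * d w'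
  d_supp : ∀ w : ι → V, ∑ i, w i = 0 → ∀ I : Finset ι, (∀ i, i ∉ I → w i = 0) → d w ∈ Φ.S I
  d_conj : ∀ s ∈ alternatingGroup ι, ∀ w : ι → V, ∑ i, w i = 0 →
    Φ.c s * d w * (Φ.c s)⁻¹ = d (fun i => w (s⁻¹ i))

variable {Φ : Floors ι G} {V : Type*} [AddCommGroup V] (D : Shifts Φ V)

namespace Shifts

lemma d_zero : D.d 0 = 1 := by
  have h := D.d_add 0 0 (by simp) (by simp)
  rw [add_zero] at h
  exact mul_eq_left.mp h.symm

lemma d_neg {w : ι → V} (hw : ∑ i, w i = 0) : D.d (-w) = (D.d w)⁻¹ := by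
  have h := D.d_add w (-w) hw (by simp [hw])
  rw [add_neg_cancel, D.d_zero] at h
  exact (inv_eq_of_mul_eq_one_right h.symm).symm

lemma sum_pair (i j : ι) (x : V) : ∑ k, (Pi.single i x - Pi.single j x : ι → V) k = 0 := by
  simp [Finset.sum_sub_distrib]

/-- Floorwise translations are products of translations of two floors. -/
lemma d_mem_of_pairs (C : Subgroup G) (i₀ : ι) {w : ι → V} (hw : ∑ i, w i = 0)
    (h : ∀ i, D.d (Pi.single i (w i) - Pi.single i₀ (w i)) ∈ C) : D.d w ∈ C := by
  have key : ∀ A : Finset ι, (∑ k, (∑ i ∈ A, (Pi.single i (w i) - Pi.single i₀ (w i) : ι → V)) k = 0)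
      ∧ D.d (∑ i ∈ A, (Pi.single i (w i) - Pi.single i₀ (w i))) ∈ C := by
    intro A
    induction A using Finset.induction_on with
    | empty => simp [D.d_zero]
    | insert a A ha ih =>
      rw [Finset.sum_insert ha]
      constructor
      · simp only [Pi.add_apply, Finset.sum_add_distrib]
        rw [ih.1, add_zero]
        exact sum_pair a i₀ (w a)
      · rw [D.d_add _ _ (sum_pair a i₀ (w a)) ih.1]
        exact mul_mem (h a) ih.2
  have e : ∑ i, (Pi.single i (w i) - Pi.single i₀ (w i) : ι → V) = w := by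
    rw [Finset.sum_sub_distrib]
    have e1 : ∑ i, (Pi.single i (w i) : ι → V) = w := Finset.univ_sum_single w
    have e2 : ∑ i, (Pi.single i₀ (w i) : ι → V) = 0 := by
      ext k
      rw [Finset.sum_apply]
      by_cases hk : k = i₀
      · subst hk; simp [hw]
      · simp [hk]
    rw [e1, e2, sub_zero]
  have := (key Finset.univ).2
  rwa [e] at this

/-- Translations vanishing on the floors of a 3-cycle commute with the event at this 3-cycle. -/
lemma d_comm_event (E : Event Φ) {σ : Perm ι} (hσ : σ.IsThreeCycle) {w : ι → V}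
    (hw : ∑ i, w i = 0) (h0 : ∀ i ∈ σ.support, w i = 0) : D.d w * E σ = E σ * D.d w := by
  have hcard := Φ.card
  have hc := hσ.card_support
  obtain ⟨i₀, hi₀⟩ : ∃ i₀, i₀ ∉ σ.support := by
    by_contra hcon
    push Not at hcon
    have : σ.support = Finset.univ := Finset.eq_univ_iff_forall.mpr hcon
    rw [this, Finset.card_univ] at hc
    omega
  have h := D.d_mem_of_pairs (Subgroup.centralizer {E σ}) i₀ hw ?_
  · rw [Subgroup.mem_centralizer_iff] at h
    exact (h (E σ) rfl).symm
  intro i
  rw [Subgroup.mem_centralizer_iff]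
  rintro _ rfl
  by_cases hi : i ∈ σ.support
  · rw [h0 i hi]
    simp [D.d_zero]
  · have h1 : σ.support ⊆ ({i, i₀} : Finset ι)ᶜ := by
      intro x hx
      rw [Finset.mem_compl, Finset.mem_insert, Finset.mem_singleton]
      rintro (rfl | rfl)
      · exact hi hx
      · exact hi₀ hx
    obtain ⟨I, hI1, hI2, hI3⟩ := Finset.exists_subsuperset_card_eq h1 (n := 5) (by omega)
      (by
        rw [Finset.card_compl]
        have := Finset.card_le_two (a := i) (b := i₀)
        omega)
    refine Φ.comm (I := I) (J := {i, i₀}) ?_ _ (E.supp σ hσ I hI1 hI3.ge) _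
      (D.d_supp _ (sum_pair i i₀ (w i)) _ ?_)
    · rw [Finset.disjoint_left]
      intro x hx hx'
      exact Finset.mem_compl.mp (hI2 hx) hx'
    · intro k hk
      rw [Finset.mem_insert, Finset.mem_singleton, not_or] at hk
      simp [hk.1, hk.2]

lemma exists_vec {J I : Finset ι} (h : J ⊂ I) (v : V) :
    ∃ w : ι → V, ∑ i, w i = 0 ∧ (∀ j ∈ J, w j = v) ∧ (∀ i, i ∉ I → w i = 0) := by
  have h1 : J ⊆ I := h.1
  obtain ⟨i₀, hi₀, hi₀'⟩ := Finset.exists_of_ssubset h
  refine ⟨fun i => (if i ∈ J then v else 0) + (Pi.single i₀ (-(J.card • v)) : ι → V) i, ?_, ?_, ?_⟩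
  · rw [Finset.sum_add_distrib]
    simp
  · intro j hj
    have : j ≠ i₀ := fun e => hi₀' (e ▸ hj)
    simp [hj, this]
  · intro i hi
    have h2 : i ∉ J := fun hj => hi (h1 hj)
    have h3 : i ≠ i₀ := fun e => hi (e ▸ hi₀)
    simp [h2, h3]

end Shifts

open Shifts

lemma support_ssubset_univ (hc : 12 ≤ Fintype.card ι) {J : Finset ι} (h : J.card ≤ 6) :
    J ⊂ Finset.univ := by
  rw [Finset.ssubset_univ_iff]
  rintro rfl
  rw [Finset.card_univ] at h
  omega

/-- Conjugation by `D.d w` only depends on `w` on the floors. -/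
lemma d_conj_eq (E : Event Φ) {σ : Perm ι} (hσ : σ.IsThreeCycle) {w w' : ι → V}
    (hw : ∑ i, w i = 0) (hw' : ∑ i, w' i = 0) (h : ∀ i ∈ σ.support, w i = w' i) :
    D.d w * E σ * (D.d w)⁻¹ = D.d w' * E σ * (D.d w')⁻¹ := by
  have h1 : ∑ i, (-w' + w) i = 0 := by
    simp [Finset.sum_add_distrib, hw, hw']
  have h2 := D.d_comm_event E hσ h1 (fun i hi => by simp [h i hi])
  have h3 : D.d w = D.d w' * D.d (-w' + w) := by
    rw [← D.d_add _ _ hw' h1]; congr 1; abel
  rw [h3]
  calc D.d w' * D.d (-w' + w) * E σ * (D.d w' * D.d (-w' + w))⁻¹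
      = D.d w' * (D.d (-w' + w) * E σ) * (D.d (-w' + w))⁻¹ * (D.d w')⁻¹ := by group
    _ = _ := by rw [h2]; group

open Classical in
/-- The vector used for the definition of translated events. -/
noncomputable def vec (Φ : Floors ι G) (v : V) (σ : Perm ι) : ι → V :=
  if h : σ.IsThreeCycle then
    (exists_vec (support_ssubset_univ Φ.card (J := σ.support) (by rw [h.card_support]; norm_num))
      v).choose else 0

lemma vec_spec (Φ : Floors ι G) (v : V) {σ : Perm ι} (h : σ.IsThreeCycle) :
    ∑ i, vec Φ v σ i = 0 ∧ ∀ j ∈ σ.support, vec Φ v σ j = v := by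
  unfold vec
  rw [dif_pos h]
  have := (exists_vec (support_ssubset_univ Φ.card (J := σ.support)
    (by rw [h.card_support]; norm_num)) v).choose_spec
  exact ⟨this.1, this.2.1⟩

/-- The translate of an event. -/
noncomputable def Event.shift (D : Shifts Φ V) (v : V) (E : Event Φ) : Event Φ := by
  have key : ∀ (σ : Perm ι), σ.IsThreeCycle → ∀ w : ι → V, ∑ i, w i = 0 →
      (∀ i ∈ σ.support, w i = v) →
      D.d (vec Φ v σ) * E σ * (D.d (vec Φ v σ))⁻¹ = D.d w * E σ * (D.d w)⁻¹ := by
    intro σ hσ w hw hv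
    exact d_conj_eq D E hσ (vec_spec Φ v hσ).1 hw
      (fun i hi => by rw [(vec_spec Φ v hσ).2 i hi, hv i hi])
  exact
  { t := fun σ => D.d (vec Φ v σ) * E σ * (D.d (vec Φ v σ))⁻¹
    off := fun σ hσ => by rw [E.off σ hσ]; group
    mul := fun σ τ hσ hτ hστ => by
      obtain ⟨I, hI1, hI2, hI3⟩ := union_support σ τ hσ hτ Φ.card
      obtain ⟨w, hw, hv, -⟩ := exists_vec (support_ssubset_univ Φ.card hI3.le) v
      rw [key σ hσ w hw (fun i hi => hv i (hI1 hi)), key τ hτ w hw (fun i hi => hv i (hI2 hi)),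
        key _ hστ w hw (fun i hi => by
          rcases Finset.mem_union.mp (support_mul_le σ τ hi) with h | h
          · exact hv i (hI1 h)
          · exact hv i (hI2 h)), ← E.mul σ τ hσ hτ hστ]
      group
    conj := fun σ τ hσ hτ => by
      obtain ⟨I, hI1, hI2, hI3⟩ := union_support σ τ hσ hτ Φ.card
      obtain ⟨w, hw, hv, -⟩ := exists_vec (support_ssubset_univ Φ.card hI3.le) v
      rw [key σ hσ w hw (fun i hi => hv i (hI1 hi)), key τ hτ w hw (fun i hi => hv i (hI2 hi)),
        key _ (IsThreeCycle.conj hτ σ) w hw (fun i hi => by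
          rcases Finset.mem_union.mp (support_mul_le (σ * τ) σ⁻¹ hi) with h | h
          · rcases Finset.mem_union.mp (support_mul_le σ τ h) with h | h
            · exact hv i (hI1 h)
            · exact hv i (hI2 h)
          · rw [support_inv] at h
            exact hv i (hI1 h)), ← E.conj σ τ hσ hτ]
      group
    equiv := fun u hu τ hτ => by
      obtain ⟨w, hw, hv, -⟩ := exists_vec
        (support_ssubset_univ Φ.card (J := τ.support) (by rw [hτ.card_support]; norm_num)) v
      have hw' : ∑ i, (fun i => w (u⁻¹ i)) i = 0 := by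
        rw [← hw]
        exact Fintype.sum_equiv u⁻¹ _ _ (fun _ => rfl)
      rw [key τ hτ w hw hv, key (u * τ * u⁻¹) (IsThreeCycle.conj hτ u) (fun i => w (u⁻¹ i)) hw'
        (fun i hi => by
          apply hv
          rw [mem_support] at hi ⊢
          intro h
          apply hi
          rw [Perm.mul_apply, Perm.mul_apply, h]
          simp), ← D.d_conj u hu w hw, ← E.equiv u hu τ hτ]
      group
    supp := fun τ hτ I hI h5 => by
      obtain ⟨w, hw, hv, h0⟩ := exists_vec (J := τ.support) (I := I) (by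
        refine ⟨hI, fun h => ?_⟩
        have := Finset.card_le_card h
        rw [hτ.card_support] at this
        omega) v
      rw [key τ hτ w hw hv]
      have h1 := D.d_supp w hw I h0
      exact mul_mem (mul_mem h1 (E.supp τ hτ I hI h5)) (inv_mem h1) }

lemma shift_apply (v : V) (E : Event Φ) {σ : Perm ι} (hσ : σ.IsThreeCycle) {w : ι → V}
    (hw : ∑ i, w i = 0) (hv : ∀ i ∈ σ.support, w i = v) :
    (E.shift D v) σ = D.d w * E σ * (D.d w)⁻¹ :=
  d_conj_eq D E hσ (vec_spec Φ v hσ).1 hw
      (fun i hi => by rw [(vec_spec Φ v hσ).2 i hi, hv i hi])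

/-- a common vector for two 3-cycles -/
lemma exists_vec_two (Φ : Floors ι G) (v : V) {σ τ : Perm ι} (hσ : σ.IsThreeCycle)
    (hτ : τ.IsThreeCycle) : ∃ w : ι → V, ∑ i, w i = 0 ∧ (∀ i ∈ σ.support, w i = v) ∧
      (∀ i ∈ τ.support, w i = v) ∧ (∀ i ∈ (σ * τ * σ⁻¹).support, w i = v) := by
  obtain ⟨I, hI1, hI2, hI3⟩ := union_support σ τ hσ hτ Φ.card
  obtain ⟨w, hw, hv, -⟩ := exists_vec (support_ssubset_univ Φ.card hI3.le) v
  refine ⟨w, hw, fun i hi => hv i (hI1 hi), fun i hi => hv i (hI2 hi), fun i hi => ?_⟩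
  rcases Finset.mem_union.mp (support_mul_le (σ * τ) σ⁻¹ hi) with h | h
  · rcases Finset.mem_union.mp (support_mul_le σ τ h) with h | h
    · exact hv i (hI1 h)
    · exact hv i (hI2 h)
  · rw [support_inv] at h
    exact hv i (hI1 h)

lemma shift_zero (E : Event Φ) : E.shift D 0 = E := by
  ext σ hσ
  rw [shift_apply D 0 E hσ (w := 0) (by simp) (fun _ _ => rfl), D.d_zero]
  group

lemma shift_shift (u v : V) (E : Event Φ) : (E.shift D u).shift D v = E.shift D (u + v) := by
  ext σ hσ
  obtain ⟨w, hw, hu, -, -⟩ := exists_vec_two Φ u hσ hσ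
  obtain ⟨w', hw', hv, -, -⟩ := exists_vec_two Φ v hσ hσ
  have h1 : ∑ i, (w' + w) i = 0 := by
    simp [Finset.sum_add_distrib, hw, hw']
  rw [shift_apply D v _ hσ hw' hv, shift_apply D u E hσ hw hu,
    shift_apply D (u + v) E hσ h1 (fun i hi => by simp [hu i hi, hv i hi, add_comm]),
    D.d_add _ _ hw' hw]
  group

lemma Perp.shift {E F : Event Φ} (h : Perp E F) (v : V) : Perp (E.shift D v) (F.shift D v) := by
  intro σ τ hσ hτ
  obtain ⟨w, hw, h1, h2, -⟩ := exists_vec_two Φ v hσ hτ
  rw [shift_apply D v E hσ hw h1, shift_apply D v F hτ hw h2]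
  calc D.d w * E σ * (D.d w)⁻¹ * (D.d w * F τ * (D.d w)⁻¹)
      = D.d w * (E σ * F τ) * (D.d w)⁻¹ := by group
    _ = D.d w * (F τ * E σ) * (D.d w)⁻¹ := by rw [h σ τ hσ hτ]
    _ = _ := by group

lemma Le.shift {E K : Event Φ} (h : Le E K) (v : V) : Le (E.shift D v) (K.shift D v) := by
  intro σ τ hσ hτ
  obtain ⟨w, hw, h1, h2, h3⟩ := exists_vec_two Φ v hσ hτ
  rw [shift_apply D v K hσ hw h1, shift_apply D v E hτ hw h2,
    shift_apply D v E (IsThreeCycle.conj hτ σ) hw h3, ← h σ τ hσ hτ]
  group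

lemma Splits.shift {E K T T' : Event Φ} (h : Splits E K T T') (v : V) :
    Splits (E.shift D v) (K.shift D v) (T.shift D v) (T'.shift D v) where
  perp := h.perp.shift D v
  le := h.le.shift D v
  perpK := h.perpK.shift D v
  eq := fun σ hσ => by
    obtain ⟨w, hw, h1, -, -⟩ := exists_vec_two Φ v hσ hσ
    rw [shift_apply D v E hσ hw h1, shift_apply D v T hσ hw h1, shift_apply D v T' hσ hw h1,
      h.eq σ hσ]
    group

lemma shift_const (v : V) : (Event.const : Event Φ).shift D v = Event.const := by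
  ext σ hσ
  obtain ⟨w, hw, h1, -, -⟩ := exists_vec_two Φ v hσ hσ
  rw [shift_apply D v _ hσ hw h1, const_apply hσ]
  have h2 := D.d_conj σ hσ.mem_alternatingGroup w hw
  have h3 : (fun i => w (σ⁻¹ i)) = w := by
    funext i
    by_cases hi : i ∈ σ.support
    · have hi' : σ⁻¹ i ∈ σ.support := by
        rw [mem_support] at hi ⊢
        intro h
        apply hi
        have h5 := congrArg σ h
        simp only [Equiv.Perm.inv_def, Equiv.apply_symm_apply] at h5
        exact h5
      rw [h1 i hi, h1 _ hi']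
    · have : σ⁻¹ i = i := by
        rw [notMem_support] at hi
        rw [Perm.inv_eq_iff_eq, hi]
      rw [this]
  rw [h3] at h2
  have h4 : Φ.c σ * D.d w = D.d w * Φ.c σ := by
    rw [← mul_inv_eq_iff_eq_mul]; exact h2
  rw [← h4]; group

lemma shift_zero_event (v : V) : (Event.zero : Event Φ).shift D v = Event.zero := by
  ext σ hσ
  obtain ⟨w, hw, h1, -, -⟩ := exists_vec_two Φ v hσ hσ
  rw [shift_apply D v _ hσ hw h1, zero_apply]
  group

lemma shift_compl (v : V) (E : Event Φ) : E.compl.shift D v = (E.shift D v).compl := by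
  ext σ hσ
  obtain ⟨w, hw, h1, -, -⟩ := exists_vec_two Φ v hσ hσ
  rw [shift_apply D v _ hσ hw h1, compl_apply _ hσ, compl_apply _ hσ,
    shift_apply D v _ hσ hw h1]
  have h2 : (Event.const : Event Φ).shift D v σ = (Event.const : Event Φ) σ := by
    rw [shift_const]
  rw [shift_apply D v _ hσ hw h1, const_apply hσ] at h2
  calc D.d w * ((E σ)⁻¹ * Φ.c σ) * (D.d w)⁻¹
      = (D.d w * E σ * (D.d w)⁻¹)⁻¹ * (D.d w * Φ.c σ * (D.d w)⁻¹) := by group
    _ = _ := by rw [h2]

lemma Compat.shift {E K : Event Φ} (h : Compat E K) (v : V) :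
    Compat (E.shift D v) (K.shift D v) := by
  obtain ⟨T, T', h⟩ := h
  exact ⟨_, _, h.shift D v⟩

lemma shift_meet (v : V) (E F : Event Φ) :
    (E.meet F).shift D v = (E.shift D v).meet (F.shift D v) := by
  by_cases h : Compat E F
  · obtain ⟨T, T', h⟩ := h
    rw [meet_eq h, meet_eq (h.shift D v)]
  · have h' : ¬ Compat (E.shift D v) (F.shift D v) := by
      intro hc
      apply h
      have := hc.shift D (-v)
      rwa [shift_shift, shift_shift, add_neg_cancel, shift_zero, shift_zero] at this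
    unfold Event.meet
    rw [dif_neg h, dif_neg h', shift_zero_event]

lemma shift_add_event (v : V) {E F : Event Φ} (h : Perp E F) :
    (Event.add E F h).shift D v = Event.add (E.shift D v) (F.shift D v) (h.shift D v) := by
  ext σ hσ
  obtain ⟨w, hw, h1, -, -⟩ := exists_vec_two Φ v hσ hσ
  rw [shift_apply D v _ hσ hw h1, add_apply, add_apply, shift_apply D v _ hσ hw h1,
    shift_apply D v _ hσ hw h1]
  group

/-! ### Even permutations with small support -/

/-- Induction principle for even permutations supported in a finite set. -/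
lemma alt_induction_supp (I : Finset ι) {P : alternatingGroup ι → Prop} (h1 : P 1)
    (h3 : ∀ (σ : Perm ι) (h : σ.IsThreeCycle), σ.support ⊆ I → P ⟨σ, h.mem_alternatingGroup⟩)
    (hm : ∀ v w, P v → P w → P (v * w)) (w : alternatingGroup ι)
    (hw : (w : Perm ι).support ⊆ I) : P w := by
  classical
  have key : ∀ (x : alternatingGroup {i // i ∈ I}), ∃ hx : ofSubtype (x : Perm {i // i ∈ I}) ∈
      alternatingGroup ι, P ⟨ofSubtype (x : Perm {i // i ∈ I}), hx⟩ := by
    intro x
    induction x using alt_induction with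
    | h1 =>
      have e : (⟨ofSubtype ((1 : alternatingGroup {i // i ∈ I}) : Perm {i // i ∈ I}),
        by simp⟩ : alternatingGroup ι) = 1 := Subtype.ext (by simp)
      exact ⟨by simp, by rw [e]; exact h1⟩
    | h3 σ hσ =>
      have h : (ofSubtype σ).IsThreeCycle := by
        unfold Equiv.Perm.IsThreeCycle
        rw [cycleType_ofSubtype]; exact hσ
      refine ⟨h.mem_alternatingGroup, h3 _ h ?_⟩
      intro i hi
      by_contra hi'
      rw [mem_support] at hi
      exact hi (ofSubtype_apply_of_not_mem σ hi')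
    | hm v w hv hw =>
      obtain ⟨a1, a2⟩ := hv
      obtain ⟨b1, b2⟩ := hw
      refine ⟨by simpa using mul_mem a1 b1, ?_⟩
      have := hm _ _ a2 b2
      simpa using this
  have hs : ∀ x, (w : Perm ι) x ∈ I ↔ x ∈ I := by
    intro x
    by_cases hx : (w : Perm ι) x = x
    · rw [hx]
    · have h1 : x ∈ (w : Perm ι).support := mem_support.mpr hx
      have h2 : (w : Perm ι) x ∈ (w : Perm ι).support := apply_mem_support.mpr h1
      exact ⟨fun _ => hw h1, fun _ => hw h2⟩
  have e : ofSubtype ((w : Perm ι).subtypePerm hs) = w :=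
    ofSubtype_subtypePerm hs (fun x hx => hw (mem_support.mpr hx))
  obtain ⟨hx, hP⟩ := key ⟨(w : Perm ι).subtypePerm hs, by
    rw [mem_alternatingGroup, ← sign_ofSubtype, e]
    exact mem_alternatingGroup.mp w.2⟩
  have e2 : (⟨ofSubtype ((w : Perm ι).subtypePerm hs), hx⟩ : alternatingGroup ι) = w :=
    Subtype.ext e
  rw [← e2]; exact hP

/-- Support of the values of the homomorphism of an event. -/
lemma toHom_mem_S (E : Event Φ) (I : Finset ι) (h5 : 5 ≤ I.card) (w : alternatingGroup ι)
    (hw : (w : Perm ι).support ⊆ I) : E.toHom w ∈ Φ.S I := by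
  refine alt_induction_supp I (P := fun w => E.toHom w ∈ Φ.S I) ?_ ?_ ?_ w hw
  · simp only [map_one]; exact one_mem _
  · intro σ hσ hI
    rw [toHom_three E hσ]
    exact E.supp σ hσ I hI h5
  · intro v w hv hw
    simp only [map_mul]
    exact mul_mem hv hw

/-- Translation rule for the homomorphism of an event. -/
theorem toHom_shift (E : Event Φ) {v : V} {w : ι → V} (hw : ∑ i, w i = 0)
    (a : alternatingGroup ι) (ha : ∀ i ∈ (a : Perm ι).support, w i = v) :
    D.d w * E.toHom a * (D.d w)⁻¹ = (E.shift D v).toHom a := by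
  refine alt_induction_supp (a : Perm ι).support
    (P := fun a => D.d w * E.toHom a * (D.d w)⁻¹ = (E.shift D v).toHom a) ?_ ?_ ?_ a
    (Finset.Subset.refl _)
  · simp
  · intro σ hσ hI
    rw [toHom_three E hσ, toHom_three _ hσ]
    exact (shift_apply D v E hσ hw (fun i hi => ha i (hI hi))).symm
  · intro x y hx hy
    simp only [map_mul]
    rw [← hx, ← hy]; group

end Vale.Agent.P196.Ev
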