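import Vale.Agent.P196.H83.Meet2
import Vale.Agent.P196.E3.CPBA

/-!
Event calculus (P196, block A2), part 4: the coherent partial Boolean algebra of events.
-/

open Equiv Equiv.Perm Finset

namespace Vale.Agent.P196.Ev

variable {ι : Type*} [DecidableEq ι] [Fintype ι] {G : Type*} [Group G] {Φ : Floors ι G}

lemma zero_apply (σ : Perm ι) : (Event.zero : Event Φ) σ = 1 := rfl

lemma perp_zero (E : Event Φ) : Perp E Event.zero := by
  intro σ τ _ _
  rw [zero_apply]; simp

lemma zero_le (E : Event Φ) : Le Event.zero E := by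
  intro σ τ _ _
  rw [zero_apply, zero_apply]; simp

/-- `Splits` determines its first half. -/
lemma splits_unique {E F T T' U U' : Event Φ} (h : Splits E F T T') (h' : Splits E F U U') :
    T = U := by
  ext σ hσ
  obtain ⟨a, b, c, x, y, hn, rfl, -⟩ := exists_five hσ Finset.univ (Finset.subset_univ _)
    (by rw [Finset.card_univ]; have := Φ.card; omega)
  rw [splits_cm h hn, splits_cm h' hn]

lemma Splits.le_left {E F T T' : Event Φ} (h : Splits E F T T') : Le T E := by
  have h2 : E = Event.add T T' h.perp := by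
    ext σ hσ
    rw [add_apply]; exact h.eq σ hσ
  rw [h2]
  exact le_add_left h.perp

lemma Splits.le_right {E F T T' : Event Φ} (h : Splits E F T T') : Le T' E := by
  have h2 : E = Event.add T T' h.perp := by
    ext σ hσ
    rw [add_apply]; exact h.eq σ hσ
  rw [h2]
  exact le_add_right h.perp

lemma Perp.add {A E F : Event Φ} (h : Perp E F) (h1 : Perp A E) (h2 : Perp A F) :
    Perp A (Event.add E F h) := by
  intro σ τ hσ hτ
  rw [add_apply, ← mul_assoc, h1 σ τ hσ hτ, mul_assoc, h2 σ τ hσ hτ, mul_assoc]

lemma sub_le {F T : Event Φ} (h : Le T F) : Le (Event.sub F T h) F := by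
  have h3 : F = Event.add T (Event.sub F T h) (perp_sub h) := by
    ext σ hσ
    rw [add_apply]; exact sub_spec h σ
  have h4 := le_add_right (perp_sub h)
  rw [← h3] at h4
  exact h4

/-- Symmetry of splitting. -/
lemma Splits.symm {E F T T' : Event Φ} (h : Splits E F T T') :
    Splits F E T (Event.sub F T h.le) where
  perp := perp_sub h.le
  eq := fun σ _ => sub_spec h.le σ
  le := h.le_left
  perpK := by
    have key : Perp (Event.sub F T h.le) (Event.add T T' h.perp) := by
      apply Perp.add
      · exact (perp_sub h.le).symm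
      · -- `F - T ≤ F`, `T' ⟂ F`
        exact perp_of_le_perp (K := F) (sub_le h.le) h.perpK
    intro σ τ hσ hτ
    rw [h.eq τ hτ]
    exact key σ τ hσ hτ

lemma compat_symm {E F : Event Φ} (h : Compat E F) : Compat F E := by
  obtain ⟨T, T', h⟩ := h
  exact ⟨_, _, h.symm⟩

lemma splits_of_le {E F : Event Φ} (h : Le E F) : Splits E F E Event.zero where
  perp := perp_zero E
  eq := fun σ _ => by rw [zero_apply, mul_one]
  le := h
  perpK := (perp_zero F).symm

lemma splits_of_perp {E F : Event Φ} (h : Perp E F) : Splits E F Event.zero E where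
  perp := (perp_zero E).symm
  eq := fun σ _ => by rw [zero_apply, one_mul]
  le := zero_le F
  perpK := h

/-- Complement. -/
noncomputable def Event.compl (E : Event Φ) : Event Φ := Event.sub Event.const E (le_const E)

lemma compl_apply (E : Event Φ) {σ : Perm ι} (hσ : σ.IsThreeCycle) :
    E.compl σ = (E σ)⁻¹ * Φ.c σ := by
  rw [Event.compl, sub_apply, const_apply hσ]

lemma perp_compl (E : Event Φ) : Perp E E.compl := perp_sub (le_const E)

lemma compl_compl' (E : Event Φ) : E.compl.compl = E := by
  ext σ hσ
  rw [compl_apply _ hσ, compl_apply _ hσ]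
  have h := perp_compl E σ σ hσ hσ
  rw [compl_apply _ hσ] at h
  calc ((E σ)⁻¹ * Φ.c σ)⁻¹ * Φ.c σ = (Φ.c σ)⁻¹ * (E σ * Φ.c σ) := by group
    _ = (Φ.c σ)⁻¹ * (E σ * ((E σ)⁻¹ * Φ.c σ * E σ)) := by rw [← h]; group
    _ = _ := by group

lemma perp_compl_iff {E F : Event Φ} : Perp E F.compl ↔ Le E F := by
  constructor
  · intro h
    exact le_of_perp_sub (le_const F) (le_const E) h
  · intro h
    exact perp_sub_of_le h (le_const F)

lemma le_compl_iff {E F : Event Φ} : Le E F.compl ↔ Perp E F := by
  rw [← perp_compl_iff, compl_compl']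

lemma Splits.compl {E F T T' : Event Φ} (h : Splits E F T T') : Splits E F.compl T' T where
  perp := h.perp.symm
  eq := fun σ hσ => by rw [h.eq σ hσ]; exact h.perp σ σ hσ hσ
  le := le_compl_iff.mpr h.perpK
  perpK := perp_compl_iff.mpr h.le

/-- greatest lower bound property -/
lemma Splits.glb {E F T T' X : Event Φ} (h : Splits E F T T') (h1 : Le X E) (h2 : Le X F) :
    Le X T := by
  have h3 : Perp X T' := perp_of_le_perp h2 h.perpK
  intro σ τ hσ hτ
  have h4 := h1 σ τ hσ hτ
  have h5 : Commute (T' σ) (X τ) := h3.symm σ τ hσ hτ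
  rw [h.eq σ hσ] at h4
  rw [← h4]
  calc T σ * X τ * (T σ)⁻¹ = T σ * (X τ * T' σ) * (T' σ)⁻¹ * (T σ)⁻¹ := by group
    _ = T σ * (T' σ * X τ) * (T' σ)⁻¹ * (T σ)⁻¹ := by rw [h5.eq]
    _ = _ := by group

/-- A self-orthogonal event is zero. -/
lemma eq_zero_of_perp_self {Z : Event Φ} (h : Perp Z Z) : Z = Event.zero := by
  ext σ hσ
  obtain ⟨a, b, c, x, y, hn, rfl, -⟩ := exists_five hσ Finset.univ (Finset.subset_univ _)
    (by rw [Finset.card_univ]; have := Φ.card; omega)
  rw [splits_cm (splits_of_le (le_refl Z)) hn, zero_apply]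
  simp only [List.nodup_cons, List.mem_cons, List.not_mem_nil, or_false, not_or,
    not_false_eq_true, List.nodup_nil, and_true] at hn
  obtain ⟨⟨hab, hac, hax, hay⟩, ⟨hbc, hbx, hby⟩, ⟨hcx, hcy⟩, hxy⟩ := hn
  have := h _ _ (cyc_three hab hax hbx) (cyc_three hac hay hcy)
  unfold cm
  rw [this]; group

lemma le_antisymm' {X Y : Event Φ} (h1 : Le X Y) (h2 : Le Y X) : X = Y := by
  have h3 : Y = Event.add X (Event.sub Y X h1) (perp_sub h1) := by
    ext σ hσ
    rw [add_apply]; exact sub_spec h1 σ
  have h4 : Le (Event.sub Y X h1) Y := by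
    conv_rhs => rw [h3]
    exact le_add_right _
  have h5 : Perp (Event.sub Y X h1) X := (perp_sub h1).symm
  have h6 : Perp (Event.sub Y X h1) (Event.sub Y X h1) :=
    perp_of_le_perp (h4.trans h2) h5
  have h7 := eq_zero_of_perp_self h6
  ext σ hσ
  have h8 := sub_spec h1 σ
  rw [h7, zero_apply, mul_one] at h8
  exact h8.symm

open Classical in
/-- The meet of compatible events (zero otherwise). -/
noncomputable def Event.meet (E F : Event Φ) : Event Φ :=
  if h : Compat E F then h.choose else Event.zero

lemma meet_eq {E F T T' : Event Φ} (h : Splits E F T T') : E.meet F = T := by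
  have hc : Compat E F := ⟨T, T', h⟩
  unfold Event.meet
  rw [dif_pos hc]
  exact splits_unique hc.choose_spec.choose_spec h

lemma compat_compl {E F : Event Φ} (h : Compat E F) : Compat E F.compl := by
  obtain ⟨T, T', h⟩ := h
  exact ⟨_, _, h.compl⟩

lemma compat_meet {E F K : Event Φ} (h1 : Compat E F) (h2 : Compat E K) (h3 : Compat F K) :
    Compat (E.meet F) K := by
  obtain ⟨T, T', h1⟩ := h1
  obtain ⟨E₁, E₂, h2⟩ := h2
  obtain ⟨F₁, F₂, h3⟩ := h3
  rw [meet_eq h1]
  exact ⟨_, _, splits_halves h1 h2 h3⟩

lemma meet_le_left {E F : Event Φ} (h : Compat E F) : Le (E.meet F) E := by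
  obtain ⟨T, T', h⟩ := h
  rw [meet_eq h]; exact h.le_left

lemma meet_le_right {E F : Event Φ} (h : Compat E F) : Le (E.meet F) F := by
  obtain ⟨T, T', h⟩ := h
  rw [meet_eq h]; exact h.le

lemma le_meet {E F X : Event Φ} (h : Compat E F) (h1 : Le X E) (h2 : Le X F) :
    Le X (E.meet F) := by
  obtain ⟨T, T', h⟩ := h
  rw [meet_eq h]; exact h.glb h1 h2

lemma meet_comm {E F : Event Φ} (h : Compat E F) : E.meet F = F.meet E := by
  obtain ⟨T, T', h⟩ := h
  rw [meet_eq h, meet_eq h.symm]

lemma meet_eq_left_iff {E F : Event Φ} (h : Compat E F) : E.meet F = E ↔ Le E F := by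
  constructor
  · intro h'
    rw [← h']; exact meet_le_right h
  · intro h'
    exact meet_eq (splits_of_le h')

lemma compl_add {X Y : Event Φ} (h : Perp X Y) :
    Splits X.compl Y.compl (Event.add X Y h).compl Y where
  perp := (perp_sub_of_le (le_add_right h) (le_const _)).symm
  eq := fun σ hσ => by
    rw [compl_apply _ hσ, compl_apply _ hσ, add_apply]
    have h1 : Commute (Y σ) ((Event.add X Y h).compl σ) :=
      perp_sub_of_le (le_add_right h) (le_const _) σ σ hσ hσ
    rw [compl_apply _ hσ, add_apply] at h1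
    rw [← h1.eq]; group
  le := le_compl_iff.mpr (perp_sub_of_le (le_add_right h) (le_const _)).symm
  perpK := perp_compl Y

noncomputable instance : E3.CPBA (Event Φ) where
  compat := Compat
  one := Event.const
  compl := Event.compl
  inf := Event.meet
  compat_refl := fun a => ⟨_, _, splits_of_le (le_refl a)⟩
  compat_symm := fun _ _ h => compat_symm h
  compat_one := fun a => compat_symm ⟨_, _, splits_of_le (le_const a)⟩
  compat_compl := fun _ _ h => compat_compl h
  compat_inf := fun _ _ _ h1 h2 h3 => compat_meet h1 h2 h3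
  compl_compl := compl_compl'
  inf_one := fun a => meet_eq (splits_of_le (le_const a))
  inf_self := fun a => meet_eq (splits_of_le (le_refl a))
  inf_compl := fun a => by
    rw [meet_eq (splits_of_perp (perp_compl a))]
    ext σ hσ
    rw [compl_apply _ hσ, const_apply hσ, zero_apply]; group
  inf_comm := fun _ _ h => meet_comm h
  inf_assoc := fun a b d hab had hbd => by
    have h1 : Compat (a.meet b) d := compat_meet hab had hbd
    have h2 : Compat a (b.meet d) :=
      compat_symm (compat_meet hbd (compat_symm hab) (compat_symm had))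
    apply le_antisymm'
    · apply le_meet h2
      · exact (meet_le_left h1).trans (meet_le_left hab)
      · apply le_meet hbd
        · exact (meet_le_left h1).trans (meet_le_right hab)
        · exact meet_le_right h1
    · apply le_meet h1
      · apply le_meet hab
        · exact meet_le_left h2
        · exact (meet_le_right h2).trans (meet_le_left hbd)
      · exact (meet_le_right h2).trans (meet_le_right hbd)
  huntington := fun a b h => by
    obtain ⟨T, T', h⟩ := h
    rw [meet_eq h, meet_eq h.compl, meet_eq (compl_add h.perp), compl_compl']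
    ext σ hσ
    rw [add_apply]; exact (h.eq σ hσ).symm
  excl := fun p q e hp hq h1 h2 => by
    rw [meet_eq_left_iff hp] at h1
    rw [meet_eq_left_iff (compat_compl hq), le_compl_iff] at h2
    exact ⟨_, _, splits_of_perp (perp_of_le_perp h1 h2)⟩

end Vale.Agent.P196.Ev
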