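import Mathlib

/-!
Elementary facts on 3-cycles `cyc a b c` (`a ↦ b ↦ c ↦ a`) used by the event calculus of P196.
-/

open Equiv Equiv.Perm Finset

namespace Vale.Agent.P196.Ev

variable {ι : Type*} [DecidableEq ι]

/-- The permutation `a ↦ b ↦ c ↦ a`. -/
def cyc (a b c : ι) : Perm ι := swap a c * swap a b

lemma cyc_a {a b c : ι} (hab : a ≠ b) (hbc : b ≠ c) : cyc a b c a = b := by
  simp [cyc, swap_apply_of_ne_of_ne hab.symm hbc]

lemma cyc_b (a b c : ι) : cyc a b c b = c := by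
  simp [cyc]

lemma cyc_c {a b c : ι} (hac : a ≠ c) (hbc : b ≠ c) : cyc a b c c = a := by
  simp [cyc, swap_apply_of_ne_of_ne hac.symm hbc.symm]

lemma cyc_of_ne {a b c x : ι} (h1 : x ≠ a) (h2 : x ≠ b) (h3 : x ≠ c) : cyc a b c x = x := by
  simp [cyc, swap_apply_of_ne_of_ne h1 h2, swap_apply_of_ne_of_ne h1 h3]

lemma cyc_rot {a b c : ι} (hab : a ≠ b) (hac : a ≠ c) (hbc : b ≠ c) :
    cyc a b c = cyc b c a := by
  ext x
  by_cases h1 : x = a
  · subst h1
    rw [cyc_a hab hbc, cyc_c hab.symm hac.symm]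
  by_cases h2 : x = b
  · subst h2
    rw [cyc_b, cyc_a hbc hac.symm]
  by_cases h3 : x = c
  · subst h3
    rw [cyc_c hac hbc, cyc_b]
  rw [cyc_of_ne h1 h2 h3, cyc_of_ne h2 h3 h1]

lemma cyc_inv (a b c : ι) : (cyc a b c)⁻¹ = cyc a c b := by
  simp [cyc, mul_inv_rev]

lemma cyc_conj (w : Perm ι) (a b c : ι) :
    w * cyc a b c * w⁻¹ = cyc (w a) (w b) (w c) := by
  have h1 : ∀ x y : ι, w * swap x y * w⁻¹ = swap (w x) (w y) := by
    intro x y
    rw [Equiv.swap_apply_apply]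
  calc w * cyc a b c * w⁻¹ = (w * swap a c * w⁻¹) * (w * swap a b * w⁻¹) := by
        simp only [cyc]; group
    _ = _ := by rw [h1, h1]; rfl

variable [Fintype ι]

lemma cyc_three {a b c : ι} (hab : a ≠ b) (hac : a ≠ c) (hbc : b ≠ c) :
    (cyc a b c).IsThreeCycle :=
  isThreeCycle_swap_mul_swap_same hac hab hbc.symm

lemma cyc_support {a b c : ι} (hab : a ≠ b) (hac : a ≠ c) (hbc : b ≠ c) :
    (cyc a b c).support = {a, b, c} := by
  have h := cyc_three hab hac hbc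
  have ha : a ∈ (cyc a b c).support := by
    rw [mem_support, cyc_a hab hbc]; exact hab.symm
  rw [← h.support_eq_iff_mem_support] at ha
  rw [cyc_a hab hbc, cyc_b] at ha
  exact ha

/-- Every 3-cycle is some `cyc a b c`. -/
lemma exists_cyc {σ : Perm ι} (h : σ.IsThreeCycle) :
    ∃ a b c : ι, a ≠ b ∧ a ≠ c ∧ b ≠ c ∧ σ = cyc a b c := by
  have hne : σ.support.Nonempty := by
    rw [← Finset.card_pos, h.card_support]; norm_num
  obtain ⟨a, ha⟩ := hne
  have h1 := h.eq_swap_mul_swap_iff_mem_support.mpr ha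
  have h2 := h.nodup_iff_mem_support.mpr ha
  simp only [List.nodup_cons, List.mem_cons, List.not_mem_nil, or_false, not_or,
    not_false_eq_true, List.nodup_nil, and_true] at h2
  obtain ⟨⟨h3, h4⟩, h5⟩ := h2
  refine ⟨a, σ a, σ (σ a), h3, h4, h5, ?_⟩
  have h6 : σ.support = {a, σ a, σ (σ a)} := h.support_eq_iff_mem_support.mpr ha
  ext x
  by_cases hx1 : x = a
  · subst hx1
    rw [cyc_a h3 h5]
  by_cases hx2 : x = σ a
  · subst hx2
    rw [cyc_b]
  by_cases hx3 : x = σ (σ a)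
  · subst hx3
    rw [cyc_c h4 h5]
    have h7 : (σ ^ 3) a = a := by
      rw [← h.orderOf, pow_orderOf_eq_one]; rfl
    simpa [pow_succ] using h7
  rw [cyc_of_ne hx1 hx2 hx3]
  have : x ∉ σ.support := by
    rw [h6]; simp [hx1, hx2, hx3]
  simpa [notMem_support] using this

omit [Fintype ι] in
/-- `(b c y)(a y c) = (a b c)`. -/
lemma cyc_mul_aux {a b c y : ι} (hab : a ≠ b) (hac : a ≠ c) (hay : a ≠ y) (hbc : b ≠ c)
    (hby : b ≠ y) (hcy : c ≠ y) : cyc b c y * cyc a y c = cyc a b c := by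
  ext x
  rw [Perm.mul_apply]
  by_cases h1 : x = a
  · subst h1
    rw [cyc_a hay hcy.symm, cyc_c hby hcy, cyc_a hab hbc]
  by_cases h2 : x = b
  · subst h2
    rw [cyc_of_ne hab.symm hby hbc, cyc_a hbc hcy, cyc_b]
  by_cases h3 : x = c
  · subst h3
    rw [cyc_c hac hcy.symm, cyc_of_ne hab hac hay, cyc_c hac hbc]
  by_cases h4 : x = y
  · subst h4
    rw [cyc_b, cyc_b, cyc_of_ne h1 h2 h3]
  rw [cyc_of_ne h1 h4 h3, cyc_of_ne h2 h3 h4, cyc_of_ne h1 h2 h3]

omit [Fintype ι] in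
/-- The commutator of two 3-cycles sharing exactly one point. -/
lemma cyc_commutator {a b c x y : ι} (hab : a ≠ b) (hac : a ≠ c) (hay : a ≠ y)
    (hbc : b ≠ c) (hbx : b ≠ x) (hby : b ≠ y) (hcx : c ≠ x) (hcy : c ≠ y) (hxy : x ≠ y) :
    cyc a b x * cyc a c y * (cyc a b x)⁻¹ * (cyc a c y)⁻¹ = cyc a b c := by
  rw [cyc_conj, cyc_inv, cyc_a hab hbx, cyc_of_ne hac.symm hbc.symm hcx,
    cyc_of_ne hay.symm hby.symm hxy.symm]
  exact cyc_mul_aux hab hac hay hbc hby hcy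

lemma IsThreeCycle.conj {σ : Perm ι} (h : σ.IsThreeCycle) (w : Perm ι) :
    (w * σ * w⁻¹).IsThreeCycle := by
  unfold Equiv.Perm.IsThreeCycle
  rw [cycleType_conj]
  exact h

/-- Two 3-cycles are conjugate under an even permutation moving one to the other, if there are
at least five letters. -/
lemma exists_even_conj (h5 : 5 ≤ Fintype.card ι) {σ τ : Perm ι} (hσ : σ.IsThreeCycle)
    (hτ : τ.IsThreeCycle) : ∃ w ∈ alternatingGroup ι, w * σ * w⁻¹ = τ := by
  have h := alternatingGroup.isThreeCycle_isConj (α := ι) (by rwa [Nat.card_eq_fintype_card])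
    (σ := ⟨σ, hσ.mem_alternatingGroup⟩) (τ := ⟨τ, hτ.mem_alternatingGroup⟩) hσ hτ
  rw [isConj_iff] at h
  obtain ⟨w, hw⟩ := h
  refine ⟨w.1, w.2, ?_⟩
  have := congrArg Subtype.val hw
  simpa using this

/-- There is a 3-cycle with support disjoint from a given small set. -/
lemma exists_cyc_disjoint (A : Finset ι) (hA : A.card + 3 ≤ Fintype.card ι) :
    ∃ a b c : ι, a ≠ b ∧ a ≠ c ∧ b ≠ c ∧ a ∉ A ∧ b ∉ A ∧ c ∉ A := by
  have h : 3 ≤ (Aᶜ).card := by
    rw [Finset.card_compl]; omega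
  obtain ⟨B, hB, hB3⟩ := Finset.exists_subset_card_eq h
  obtain ⟨a, b, c, hab, hac, hbc, rfl⟩ := Finset.card_eq_three.mp hB3
  refine ⟨a, b, c, hab, hac, hbc, ?_, ?_, ?_⟩
  · exact Finset.mem_compl.mp (hB (by simp))
  · exact Finset.mem_compl.mp (hB (by simp))
  · exact Finset.mem_compl.mp (hB (by simp))

/-- For small `I`, `J` some even permutation moves `I` off `J`. -/
lemma exists_even_move (I J : Finset ι) (h : I.card + J.card ≤ Fintype.card ι)
    (h2 : J.card + 2 ≤ Fintype.card ι) :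
    ∃ w ∈ alternatingGroup ι, ∀ i ∈ I, w i ∉ J := by
  classical
  -- a permutation
  have h1 : I.card ≤ (Jᶜ).card := by rw [Finset.card_compl]; omega
  obtain ⟨B, hB, hBc⟩ := Finset.exists_subset_card_eq h1
  have e : (I : Set ι) ≃ (B : Set ι) := by
    apply Fintype.equivOfCardEq
    simp [hBc]
  obtain ⟨w0, hw0⟩ : ∃ w0 : Perm ι, ∀ i ∈ I, w0 i ∈ B := by
    have e' : {x // x ∈ I} ≃ {x // x ∈ B} := e
    refine ⟨e'.extendSubtype, fun i hi => ?_⟩
    rw [Equiv.extendSubtype_apply_of_mem e' i hi]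
    exact (e' ⟨i, hi⟩).2
  have hw0' : ∀ i ∈ I, w0 i ∉ J := fun i hi => Finset.mem_compl.mp (hB (hw0 i hi))
  rcases Int.units_eq_one_or (sign w0) with hs | hs
  · exact ⟨w0, mem_alternatingGroup.mpr hs, hw0'⟩
  · have h3 : 2 ≤ (Jᶜ).card := by rw [Finset.card_compl]; omega
    obtain ⟨D, hD, hD2⟩ := Finset.exists_subset_card_eq h3
    obtain ⟨u, v, huv, rfl⟩ := Finset.card_eq_two.mp hD2
    have hu : u ∉ J := Finset.mem_compl.mp (hD (by simp))
    have hv : v ∉ J := Finset.mem_compl.mp (hD (by simp))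
    refine ⟨swap u v * w0, ?_, fun i hi => ?_⟩
    · rw [mem_alternatingGroup, Perm.sign_mul, sign_swap huv, hs]; rfl
    · rw [Perm.mul_apply]
      by_cases h4 : w0 i = u
      · rw [h4, swap_apply_left]; exact hv
      by_cases h5 : w0 i = v
      · rw [h5, swap_apply_right]; exact hu
      rw [swap_apply_of_ne_of_ne h4 h5]
      exact hw0' i hi

end Vale.Agent.P196.Ev
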