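import Vale.Agent.P196.H83.Cyc

/-!
Event calculus (P196, block A2): events are families `t : Perm ι → G` (only the values at 3-cycles
matter) behaving like the restriction to 3-cycles of a homomorphism `Alt ι → G`, living on the
floors of the 3-cycle. The only elements commuting with everything are trivial.
-/

open Equiv Equiv.Perm Finset

namespace Vale.Agent.P196.Ev

/-- Ambient data for the event calculus. `S I` = elements living on the floors `I`,
`c` = constants (a homomorphism on even permutations). -/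
structure Floors (ι : Type*) [DecidableEq ι] [Fintype ι] (G : Type*) [Group G] where
  S : Finset ι → Subgroup G
  mono : ∀ {I J : Finset ι}, I ⊆ J → S I ≤ S J
  comm : ∀ {I J : Finset ι}, _root_.Disjoint I J → ∀ x ∈ S I, ∀ y ∈ S J, x * y = y * x
  c : Perm ι → G
  c_mul : ∀ v ∈ alternatingGroup ι, ∀ w ∈ alternatingGroup ι, c (v * w) = c v * c w
  c_conj : ∀ w ∈ alternatingGroup ι, ∀ I, ∀ x ∈ S I, c w * x * (c w)⁻¹ ∈ S (I.map w.toEmbedding)
  c_supp : ∀ σ : Perm ι, σ.IsThreeCycle → c σ ∈ S σ.support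
  gen : ∀ x : G, (∀ J : Finset ι, J.card ≤ 5 → ∀ y ∈ S J, x * y = y * x) → x = 1
  card : 12 ≤ Fintype.card ι

variable {ι : Type*} [DecidableEq ι] [Fintype ι] {G : Type*} [Group G] (Φ : Floors ι G)

/-- An event: an honest homomorphism from the even permutations of the floors, given by its
values on 3-cycles, equivariant under the constants and living on the floors. -/
structure Event where
  t : Perm ι → G
  off : ∀ σ : Perm ι, ¬ σ.IsThreeCycle → t σ = 1
  mul : ∀ σ τ : Perm ι, σ.IsThreeCycle → τ.IsThreeCycle → (σ * τ).IsThreeCycle →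
    t σ * t τ = t (σ * τ)
  conj : ∀ σ τ : Perm ι, σ.IsThreeCycle → τ.IsThreeCycle →
    t σ * t τ * (t σ)⁻¹ = t (σ * τ * σ⁻¹)
  equiv : ∀ w ∈ alternatingGroup ι, ∀ τ : Perm ι, τ.IsThreeCycle →
    Φ.c w * t τ * (Φ.c w)⁻¹ = t (w * τ * w⁻¹)
  supp : ∀ τ : Perm ι, τ.IsThreeCycle → ∀ I : Finset ι, τ.support ⊆ I → 5 ≤ I.card → t τ ∈ Φ.S I

variable {Φ}

instance : CoeFun (Event Φ) (fun _ => Perm ι → G) := ⟨Event.t⟩

@[ext]
lemma Event.ext {E F : Event Φ} (h : ∀ σ : Perm ι, σ.IsThreeCycle → E σ = F σ) : E = F := by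
  have : E.t = F.t := by
    funext σ
    by_cases hσ : σ.IsThreeCycle
    · exact h σ hσ
    · rw [E.off σ hσ, F.off σ hσ]
  cases E; cases F; simp_all

/-- `E ≤ K`: `K` acts on `E` by relabelling the floors. -/
def Le (E K : Event Φ) : Prop :=
  ∀ σ τ : Perm ι, σ.IsThreeCycle → τ.IsThreeCycle → K σ * E τ * (K σ)⁻¹ = E (σ * τ * σ⁻¹)

/-- `E ⟂ F`: elementwise commuting. -/
def Perp (E F : Event Φ) : Prop :=
  ∀ σ τ : Perm ι, σ.IsThreeCycle → τ.IsThreeCycle → E σ * F τ = F τ * E σ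

lemma Perp.symm {E F : Event Φ} (h : Perp E F) : Perp F E :=
  fun σ τ hσ hτ => (h τ σ hτ hσ).symm

lemma sq_eq_inv {σ : Perm ι} (hσ : σ.IsThreeCycle) : σ * σ = σ⁻¹ := by
  have h : σ ^ 3 = 1 := by rw [← hσ.orderOf, pow_orderOf_eq_one]
  rw [eq_inv_iff_mul_eq_one, ← h]; simp [pow_succ]

lemma Event.inv (E : Event Φ) {σ : Perm ι} (hσ : σ.IsThreeCycle) : E σ⁻¹ = (E σ)⁻¹ := by
  have h1 : E σ * E σ = E σ⁻¹ := by
    rw [E.mul σ σ hσ hσ hσ.isThreeCycle_sq, sq_eq_inv hσ]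
  have h2 : E σ⁻¹ * E σ⁻¹ = E σ := by
    rw [E.mul _ _ hσ.inv hσ.inv hσ.inv.isThreeCycle_sq, sq_eq_inv hσ.inv, inv_inv]
  have h3 : E σ * E σ * (E σ * E σ) = E σ := by rw [h1, h2]
  have h4 : E σ * E σ * E σ = 1 := by
    have : E σ * E σ * E σ * E σ = E σ := by rw [← h3]; rw [h3]; rw [← mul_assoc] at h3; exact h3
    exact mul_eq_right.mp this
  rw [← h1, eq_inv_iff_mul_eq_one]; exact h4

lemma Event.comm_disjoint (E F : Event Φ)
    {σ τ : Perm ι} (hσ : σ.IsThreeCycle) (hτ : τ.IsThreeCycle)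
    (hd : _root_.Disjoint σ.support τ.support) : E σ * F τ = F τ * E σ := by
  have hc := Φ.card
  -- enlarge the supports to disjoint sets of five floors
  have h3 := hσ.card_support
  have h3' := hτ.card_support
  have h1 : σ.support ⊆ (τ.support)ᶜ := by
    intro x hx
    rw [Finset.mem_compl]
    exact fun hx' => Finset.disjoint_left.mp hd hx hx'
  obtain ⟨I, hI1, hI2, hI3⟩ := Finset.exists_subsuperset_card_eq h1 (n := 5) (by omega)
    (by rw [Finset.card_compl]; omega)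
  have h2 : τ.support ⊆ Iᶜ := by
    intro x hx
    rw [Finset.mem_compl]
    intro hx'
    exact Finset.mem_compl.mp (hI2 hx') hx
  obtain ⟨J, hJ1, hJ2, hJ3⟩ := Finset.exists_subsuperset_card_eq h2 (n := 5) (by omega)
    (by rw [Finset.card_compl]; omega)
  refine Φ.comm (I := I) (J := J) ?_ _ (E.supp σ hσ I hI1 hI3.ge) _ (F.supp τ hτ J hJ1 hJ3.ge)
  rw [Finset.disjoint_left]
  intro x hx hx'
  exact Finset.mem_compl.mp (hJ2 hx') hx

/-- Properties stable under conjugation by 3-cycles propagate to even permutations. -/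
lemma prop_closure {P : Perm ι → Prop} (hP : ∀ σ τ : Perm ι, σ.IsThreeCycle → τ.IsThreeCycle →
    (P τ ↔ P (σ * τ * σ⁻¹))) {w : Perm ι} (hw : w ∈ alternatingGroup ι) :
    ∀ τ : Perm ι, τ.IsThreeCycle → (P τ ↔ P (w * τ * w⁻¹)) := by
  rw [← closure_three_cycles_eq_alternating] at hw
  induction hw using Subgroup.closure_induction with
  | mem x hx => exact fun τ hτ => hP x τ hx hτ
  | one => intro τ _; simp
  | mul x y _ _ hx hy =>
    intro τ hτ
    rw [hy τ hτ, hx _ (IsThreeCycle.conj hτ y)]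
    simp only [mul_inv_rev, mul_assoc]
  | inv x _ hx =>
    intro τ hτ
    have h := hx (x⁻¹ * τ * x⁻¹⁻¹) (IsThreeCycle.conj hτ x⁻¹)
    rw [h]
    simp [mul_assoc]

/-- Orthogonality trick. -/
lemma perp_of_le_perp {E F K : Event Φ} (hEK : Le E K) (hFK : Perp F K) : Perp E F := by
  intro τ ρ hτ hρ
  have hc := Φ.card
  set P : Perm ι → Prop := fun τ => E τ * F ρ = F ρ * E τ with hPdef
  have hP : ∀ σ τ : Perm ι, σ.IsThreeCycle → τ.IsThreeCycle → (P τ ↔ P (σ * τ * σ⁻¹)) := by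
    intro σ τ hσ hτ
    have hk := hFK ρ σ hρ hσ
    simp only [hPdef]
    rw [← hEK σ τ hσ hτ]
    constructor
    · intro h
      calc K σ * E τ * (K σ)⁻¹ * F ρ = K σ * E τ * ((K σ)⁻¹ * F ρ) := by group
        _ = K σ * E τ * (F ρ * (K σ)⁻¹) := by
            congr 1
            rw [inv_mul_eq_iff_eq_mul, ← mul_assoc, ← hk]; group
        _ = K σ * (E τ * F ρ) * (K σ)⁻¹ := by group
        _ = K σ * (F ρ * E τ) * (K σ)⁻¹ := by rw [h]
        _ = (K σ * F ρ) * E τ * (K σ)⁻¹ := by group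
        _ = F ρ * (K σ * E τ * (K σ)⁻¹) := by rw [← hk]; group
    · intro h
      have h' : K σ * E τ * (K σ)⁻¹ * F ρ * K σ = F ρ * (K σ * E τ * (K σ)⁻¹) * K σ := by rw [h]
      have h1 : K σ * E τ * (K σ)⁻¹ * F ρ * K σ = K σ * (E τ * F ρ) := by
        calc K σ * E τ * (K σ)⁻¹ * F ρ * K σ = K σ * E τ * (K σ)⁻¹ * (F ρ * K σ) := by group
          _ = K σ * (E τ * F ρ) := by rw [hk]; group
      have h2 : F ρ * (K σ * E τ * (K σ)⁻¹) * K σ = K σ * (F ρ * E τ) := by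
        calc F ρ * (K σ * E τ * (K σ)⁻¹) * K σ = (F ρ * K σ) * E τ := by group
          _ = K σ * (F ρ * E τ) := by rw [hk]; group
      rw [h1, h2] at h'
      exact mul_left_cancel h'
  -- move `τ` off `ρ`
  obtain ⟨a, b, c, hab, hac, hbc, ha, hb, hc'⟩ := exists_cyc_disjoint ρ.support
    (by rw [hρ.card_support]; omega)
  have hτ' := cyc_three hab hac hbc
  obtain ⟨w, hw, hwτ⟩ := exists_even_conj (by omega) hτ hτ'
  have := (prop_closure hP hw τ hτ).mpr
  rw [hwτ] at this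
  apply this
  apply E.comm_disjoint F hτ' hρ
  rw [cyc_support hab hac hbc, Finset.disjoint_left]
  intro x hx
  simp only [Finset.mem_insert, Finset.mem_singleton] at hx
  rcases hx with rfl | rfl | rfl <;> assumption

/-! ### Constants, zero, differences and sums -/

lemma c_one : Φ.c 1 = 1 := by
  have h := Φ.c_mul 1 (one_mem _) 1 (one_mem _)
  rw [mul_one] at h
  exact (mul_eq_left.mp h.symm)

lemma c_inv {w : Perm ι} (hw : w ∈ alternatingGroup ι) : Φ.c w⁻¹ = (Φ.c w)⁻¹ := by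
  have h := Φ.c_mul w hw w⁻¹ (inv_mem hw)
  rw [mul_inv_cancel, c_one] at h
  exact (inv_eq_of_mul_eq_one_right h.symm).symm

/-- The constants as an event (the whole space). -/
noncomputable def Event.const : Event Φ := by
  classical
  exact
  { t := fun σ => if σ.IsThreeCycle then Φ.c σ else 1
    off := fun σ hσ => if_neg hσ
    mul := fun σ τ hσ hτ hστ => by
      simp only [hσ, hτ, hστ, if_true]
      rw [Φ.c_mul _ hσ.mem_alternatingGroup _ hτ.mem_alternatingGroup]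
    conj := fun σ τ hσ hτ => by
      simp only [hσ, hτ, IsThreeCycle.conj hτ σ, if_true]
      rw [Φ.c_mul _ (mul_mem hσ.mem_alternatingGroup hτ.mem_alternatingGroup) _
        (inv_mem hσ.mem_alternatingGroup),
        Φ.c_mul _ hσ.mem_alternatingGroup _ hτ.mem_alternatingGroup,
        c_inv hσ.mem_alternatingGroup]
    equiv := fun w hw τ hτ => by
      simp only [hτ, IsThreeCycle.conj hτ w, if_true]
      rw [Φ.c_mul _ (mul_mem hw hτ.mem_alternatingGroup) _ (inv_mem hw),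
        Φ.c_mul _ hw _ hτ.mem_alternatingGroup, c_inv hw]
    supp := fun τ hτ I hI _ => by
      simp only [hτ, if_true]
      exact Φ.mono hI (Φ.c_supp τ hτ) }

lemma const_apply {σ : Perm ι} (hσ : σ.IsThreeCycle) : (Event.const : Event Φ) σ = Φ.c σ := by
  classical
  exact if_pos hσ

/-- The empty event. -/
def Event.zero : Event Φ where
  t := fun _ => 1
  off := fun _ _ => rfl
  mul := by simp
  conj := by simp
  equiv := by simp
  supp := fun _ _ I _ _ => one_mem _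

lemma le_const (E : Event Φ) : Le E Event.const := by
  intro σ τ hσ hτ
  rw [const_apply hσ]
  exact E.equiv σ hσ.mem_alternatingGroup τ hτ

lemma le_refl (E : Event Φ) : Le E E := fun σ τ hσ hτ => E.conj σ τ hσ hτ

/-- elementwise form of `B` acts on `A` by relabelling. -/
lemma Le.comm {A B : Event Φ} (h : Le A B) {σ τ : Perm ι} (hσ : σ.IsThreeCycle)
    (hτ : τ.IsThreeCycle) : B σ * A τ = A (σ * τ * σ⁻¹) * B σ := by
  rw [← h σ τ hσ hτ]; group

lemma Le.comm' {A B : Event Φ} (h : Le A B) {σ τ : Perm ι} (hσ : σ.IsThreeCycle)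
    (hτ : τ.IsThreeCycle) : (B σ)⁻¹ * A τ = A (σ⁻¹ * τ * σ) * (B σ)⁻¹ := by
  have := h.comm hσ.inv hτ
  rw [B.inv hσ, inv_inv] at this
  exact this

/-- Difference `D - B` for `B ≤ D`. -/
noncomputable def Event.sub (D B : Event Φ) (h : Le B D) : Event Φ := by
  have hcomm : ∀ σ τ : Perm ι, σ.IsThreeCycle → τ.IsThreeCycle →
      B σ * ((B τ)⁻¹ * D τ) = (B τ)⁻¹ * D τ * B σ := by
    intro σ τ hσ hτ
    calc B σ * ((B τ)⁻¹ * D τ) = (B τ)⁻¹ * (B τ * B σ * (B τ)⁻¹) * D τ := by group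
      _ = (B τ)⁻¹ * B (τ * σ * τ⁻¹) * D τ := by rw [B.conj τ σ hτ hσ]
      _ = (B τ)⁻¹ * (B (τ * σ * τ⁻¹) * D τ) := by group
      _ = (B τ)⁻¹ * (D τ * B σ) := by rw [h.comm hτ hσ]
      _ = _ := by group
  exact
  { t := fun σ => (B σ)⁻¹ * D σ
    off := fun σ hσ => by rw [B.off σ hσ, D.off σ hσ]; simp
    mul := fun σ τ hσ hτ hστ => by
      calc (B σ)⁻¹ * D σ * ((B τ)⁻¹ * D τ) = (B σ)⁻¹ * (D σ * (B τ)⁻¹) * D τ := by group
        _ = (B σ)⁻¹ * (B (σ * τ * σ⁻¹))⁻¹ * D σ * D τ := by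
            have : D σ * (B τ)⁻¹ = (B (σ * τ * σ⁻¹))⁻¹ * D σ := by
              rw [← h σ τ hσ hτ]; group
            rw [this]; group
        _ = (B (σ * τ * σ⁻¹) * B σ)⁻¹ * (D σ * D τ) := by group
        _ = (B (σ * τ))⁻¹ * D (σ * τ) := by
            rw [D.mul σ τ hσ hτ hστ, ← B.mul σ τ hσ hτ hστ, ← B.conj σ τ hσ hτ]; group
    conj := fun σ τ hσ hτ => by
      have h1 := hcomm σ (σ * τ * σ⁻¹) hσ (IsThreeCycle.conj hτ σ)
      calc (B σ)⁻¹ * D σ * ((B τ)⁻¹ * D τ) * ((B σ)⁻¹ * D σ)⁻¹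
          = (B σ)⁻¹ * ((D σ * B τ * (D σ)⁻¹)⁻¹ * (D σ * D τ * (D σ)⁻¹)) * B σ := by group
        _ = (B σ)⁻¹ * ((B (σ * τ * σ⁻¹))⁻¹ * D (σ * τ * σ⁻¹) * B σ) := by
            rw [h σ τ hσ hτ, D.conj σ τ hσ hτ]; group
        _ = (B (σ * τ * σ⁻¹))⁻¹ * D (σ * τ * σ⁻¹) := by rw [← h1]; group
    equiv := fun w hw τ hτ => by
      rw [← B.equiv w hw τ hτ, ← D.equiv w hw τ hτ]; group
    supp := fun τ hτ I hI h5 => mul_mem (inv_mem (B.supp τ hτ I hI h5)) (D.supp τ hτ I hI h5) }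

lemma sub_apply {D B : Event Φ} (h : Le B D) (σ : Perm ι) :
    Event.sub D B h σ = (B σ)⁻¹ * D σ := rfl

lemma perp_sub {D B : Event Φ} (h : Le B D) : Perp B (Event.sub D B h) := by
  intro σ τ hσ hτ
  rw [sub_apply]
  calc B σ * ((B τ)⁻¹ * D τ) = (B τ)⁻¹ * (B τ * B σ * (B τ)⁻¹) * D τ := by group
    _ = (B τ)⁻¹ * B (τ * σ * τ⁻¹) * D τ := by rw [B.conj τ σ hτ hσ]
    _ = (B τ)⁻¹ * (B (τ * σ * τ⁻¹) * D τ) := by group
    _ = (B τ)⁻¹ * (D τ * B σ) := by rw [h.comm hτ hσ]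
    _ = _ := by group

lemma sub_spec {D B : Event Φ} (h : Le B D) (σ : Perm ι) : D σ = B σ * Event.sub D B h σ := by
  rw [sub_apply]; group

/-- Sum of orthogonal events. -/
def Event.add (E F : Event Φ) (h : Perp E F) : Event Φ where
  t := fun σ => E σ * F σ
  off := fun σ hσ => by rw [E.off σ hσ, F.off σ hσ]; simp
  mul := fun σ τ hσ hτ hστ => by
    rw [← E.mul σ τ hσ hτ hστ, ← F.mul σ τ hσ hτ hστ]
    calc E σ * F σ * (E τ * F τ) = E σ * (F σ * E τ) * F τ := by group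
      _ = E σ * (E τ * F σ) * F τ := by rw [h τ σ hτ hσ]
      _ = _ := by group
  conj := fun σ τ hσ hτ => by
    have h1 := h τ σ hτ hσ
    have h2 := h σ τ hσ hτ
    have h3 := h σ σ hσ hσ
    rw [← E.conj σ τ hσ hτ, ← F.conj σ τ hσ hτ]
    calc E σ * F σ * (E τ * F τ) * (E σ * F σ)⁻¹
        = E σ * (F σ * E τ) * F τ * (F σ)⁻¹ * (E σ)⁻¹ := by group
      _ = E σ * E τ * (F σ * F τ * (F σ)⁻¹) * (E σ)⁻¹ := by rw [← h1]; group
      _ = E σ * E τ * ((E σ)⁻¹ * (F σ * F τ * (F σ)⁻¹)) := by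
          have : F σ * F τ * (F σ)⁻¹ * (E σ)⁻¹ = (E σ)⁻¹ * (F σ * F τ * (F σ)⁻¹) := by
            rw [eq_inv_mul_iff_mul_eq]
            calc E σ * (F σ * F τ * (F σ)⁻¹ * (E σ)⁻¹)
                = (E σ * F σ) * F τ * (F σ)⁻¹ * (E σ)⁻¹ := by group
              _ = F σ * (E σ * F τ) * (F σ)⁻¹ * (E σ)⁻¹ := by rw [h3]; group
              _ = F σ * F τ * (E σ * (F σ)⁻¹) * (E σ)⁻¹ := by rw [h2]; group
              _ = F σ * F τ * ((F σ)⁻¹ * E σ) * (E σ)⁻¹ := by
                  congr 2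
                  rw [eq_inv_mul_iff_mul_eq, ← mul_assoc, ← h3]; group
              _ = _ := by group
          rw [← this]; group
      _ = _ := by group
  equiv := fun w hw τ hτ => by
    rw [← E.equiv w hw τ hτ, ← F.equiv w hw τ hτ]; group
  supp := fun τ hτ I hI h5 => mul_mem (E.supp τ hτ I hI h5) (F.supp τ hτ I hI h5)

lemma add_apply {E F : Event Φ} (h : Perp E F) (σ : Perm ι) :
    Event.add E F h σ = E σ * F σ := rfl

/-- `A ≤ B ≤ D` implies `A ⟂ D - B`. -/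
lemma perp_sub_of_le {A B D : Event Φ} (hAB : Le A B) (hBD : Le B D) :
    Perp A (Event.sub D B hBD) :=
  perp_of_le_perp hAB (perp_sub hBD).symm

lemma Le.trans {A B D : Event Φ} (hAB : Le A B) (hBD : Le B D) : Le A D := by
  intro σ τ hσ hτ
  have h1 := perp_sub_of_le hAB hBD τ σ hτ hσ
  rw [sub_spec hBD σ]
  calc B σ * Event.sub D B hBD σ * A τ * (B σ * Event.sub D B hBD σ)⁻¹
      = B σ * (Event.sub D B hBD σ * A τ) * (Event.sub D B hBD σ)⁻¹ * (B σ)⁻¹ := by group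
    _ = B σ * A τ * (B σ)⁻¹ := by rw [← h1]; group
    _ = _ := hAB σ τ hσ hτ

/-- if `A ≤ B`, `B ⟂ D` then `A ⟂ D`. -/
lemma Le.perp {A B D : Event Φ} (hAB : Le A B) (hBD : Perp B D) : Perp A D :=
  perp_of_le_perp hAB hBD.symm

lemma le_add_left {E F : Event Φ} (h : Perp E F) : Le E (Event.add E F h) := by
  intro σ τ hσ hτ
  have h1 := h τ σ hτ hσ
  rw [add_apply]
  calc E σ * F σ * E τ * (E σ * F σ)⁻¹ = E σ * (F σ * E τ) * (F σ)⁻¹ * (E σ)⁻¹ := by group
    _ = E σ * E τ * (E σ)⁻¹ := by rw [← h1]; group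
    _ = _ := E.conj σ τ hσ hτ

lemma add_comm' {E F : Event Φ} (h : Perp E F) : Event.add E F h = Event.add F E h.symm := by
  ext σ hσ
  rw [add_apply, add_apply]
  exact h σ σ hσ hσ

lemma le_add_right {E F : Event Φ} (h : Perp E F) : Le F (Event.add E F h) := by
  rw [add_comm' h]; exact le_add_left h.symm

lemma le_of_perp_sub {A K D : Event Φ} (hKD : Le K D) (hAD : Le A D)
    (h : Perp A (Event.sub D K hKD)) : Le A K := by
  intro σ τ hσ hτ
  have h1 := h τ σ hτ hσ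
  have h2 := hAD σ τ hσ hτ
  rw [sub_spec hKD σ] at h2
  rw [← h2]
  calc K σ * A τ * (K σ)⁻¹
      = K σ * (A τ * Event.sub D K hKD σ) * (Event.sub D K hKD σ)⁻¹ * (K σ)⁻¹ := by group
    _ = _ := by rw [h1]; group

end Vale.Agent.P196.Ev
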