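import Vale.Agent.P196.H83.Event

/-!
Event calculus (P196, block A2), part 2: intersections. Compatibility is inherited by
intersections (centreless ambient group).
-/

open Equiv Equiv.Perm Finset

namespace Vale.Agent.P196.Ev

variable {ι : Type*} [DecidableEq ι] [Fintype ι] {G : Type*} [Group G] {Φ : Floors ι G}

/-- Central trick: an element living on few floors and commuting with the constants is trivial. -/
lemma central_trick {x : G} {I : Finset ι} (hI : I.card + 5 ≤ Fintype.card ι) (hx : x ∈ Φ.S I)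
    (hc : ∀ σ : Perm ι, σ.IsThreeCycle → x * Φ.c σ = Φ.c σ * x) : x = 1 := by
  have hcard := Φ.card
  -- `x` commutes with all constants
  have hc' : ∀ w ∈ alternatingGroup ι, x * Φ.c w = Φ.c w * x := by
    intro w hw
    have hw' := hw
    rw [← closure_three_cycles_eq_alternating] at hw'
    induction hw' using Subgroup.closure_induction with
    | mem x hx => exact hc _ hx
    | one => rw [c_one]; simp
    | mul u v hu hv h1 h2 =>
      rw [closure_three_cycles_eq_alternating] at hu hv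
      rw [Φ.c_mul u hu v hv, ← mul_assoc, h1 hu, mul_assoc, h2 hv, mul_assoc]
    | inv u hu h1 =>
      rw [closure_three_cycles_eq_alternating] at hu
      rw [c_inv hu, eq_inv_mul_iff_mul_eq, ← mul_assoc, ← h1 hu]; group
  apply Φ.gen
  intro J hJ y hy
  obtain ⟨w, hw, hwI⟩ := exists_even_move I J (by omega) (by omega)
  have h1 := Φ.c_conj w hw I x hx
  have h2 : Φ.c w * x * (Φ.c w)⁻¹ = x := by
    rw [← hc' w hw]; group
  rw [h2] at h1
  refine Φ.comm ?_ x h1 y hy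
  rw [Finset.disjoint_left]
  intro i hi hi'
  rw [Finset.mem_map] at hi
  obtain ⟨j, hj, rfl⟩ := hi
  exact hwI j hj hi'

/-- Uniqueness of decompositions relative to an event `K`. -/
lemma decomp_unique (K : Event Φ) {u₁ u₂ v₁ v₂ : G} {I : Finset ι}
    (hI : I.card + 5 ≤ Fintype.card ι)
    (hu₁ : u₁ ∈ Φ.S I) (hv₁ : v₁ ∈ Φ.S I)
    (ku₁ : ∀ σ : Perm ι, σ.IsThreeCycle → u₁ * ((K σ)⁻¹ * Φ.c σ) = (K σ)⁻¹ * Φ.c σ * u₁)
    (kv₁ : ∀ σ : Perm ι, σ.IsThreeCycle → v₁ * ((K σ)⁻¹ * Φ.c σ) = (K σ)⁻¹ * Φ.c σ * v₁)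
    (ku₂ : ∀ σ : Perm ι, σ.IsThreeCycle → u₂ * K σ = K σ * u₂)
    (kv₂ : ∀ σ : Perm ι, σ.IsThreeCycle → v₂ * K σ = K σ * v₂)
    (h : u₁ * u₂ = v₁ * v₂) : u₁ = v₁ ∧ u₂ = v₂ := by
  have hx : v₁⁻¹ * u₁ = v₂ * u₂⁻¹ := by
    rw [inv_mul_eq_iff_eq_mul, ← mul_assoc, eq_mul_inv_iff_mul_eq, h]
  have h1 : v₁⁻¹ * u₁ = 1 := by
    apply central_trick hI (mul_mem (inv_mem hv₁) hu₁)
    intro σ hσ
    have a1 : v₁⁻¹ * u₁ * K σ = K σ * (v₁⁻¹ * u₁) := by
      rw [hx]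
      have e1 := ku₂ σ hσ
      have e2 := kv₂ σ hσ
      calc v₂ * u₂⁻¹ * K σ = v₂ * (u₂⁻¹ * K σ) := by group
        _ = v₂ * (K σ * u₂⁻¹) := by
            congr 1
            rw [inv_mul_eq_iff_eq_mul, ← mul_assoc, e1]; group
        _ = K σ * (v₂ * u₂⁻¹) := by rw [← mul_assoc, e2]; group
    have a2 : v₁⁻¹ * u₁ * ((K σ)⁻¹ * Φ.c σ) = (K σ)⁻¹ * Φ.c σ * (v₁⁻¹ * u₁) := by
      have e1 := ku₁ σ hσ
      have e2 := kv₁ σ hσ
      calc v₁⁻¹ * u₁ * ((K σ)⁻¹ * Φ.c σ) = v₁⁻¹ * (u₁ * ((K σ)⁻¹ * Φ.c σ)) := by group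
        _ = v₁⁻¹ * ((K σ)⁻¹ * Φ.c σ) * u₁ := by rw [e1]; group
        _ = ((K σ)⁻¹ * Φ.c σ) * v₁⁻¹ * u₁ := by
            congr 1
            rw [inv_mul_eq_iff_eq_mul, ← mul_assoc, e2]; group
        _ = _ := by group
    calc v₁⁻¹ * u₁ * Φ.c σ = (v₁⁻¹ * u₁ * K σ) * ((K σ)⁻¹ * Φ.c σ) := by group
      _ = K σ * ((v₁⁻¹ * u₁) * ((K σ)⁻¹ * Φ.c σ)) := by rw [a1]; group
      _ = _ := by rw [a2]; group
  have h2 : u₁ = v₁ := by
    have := congrArg (v₁ * ·) h1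
    simpa using this
  refine ⟨h2, ?_⟩
  rw [h2] at h
  exact mul_left_cancel h

/-- `E = E₁ + E₂` with `E₁ ≤ K` and `E₂ ⟂ K`. -/
structure Splits (E K E₁ E₂ : Event Φ) : Prop where
  perp : Perp E₁ E₂
  eq : ∀ σ : Perm ι, σ.IsThreeCycle → E σ = E₁ σ * E₂ σ
  le : Le E₁ K
  perpK : Perp E₂ K

/-- Compatible events. -/
def Compat (E K : Event Φ) : Prop := ∃ E₁ E₂ : Event Φ, Splits E K E₁ E₂

/-- The commutator `[g, h] = g h g⁻¹ h⁻¹`. -/
def cm (g h : G) : G := g * h * g⁻¹ * h⁻¹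

lemma cm_comm {x g h : G} (h1 : x * g = g * x) (h2 : x * h = h * x) : x * cm g h = cm g h * x := by
  have c1 : Commute x g := h1
  have c2 : Commute x h := h2
  exact ((((c1.mul_right c2).mul_right c1.inv_right).mul_right c2.inv_right)).eq

lemma cm_mul {g₁ g₂ h₁ h₂ : G} (a : g₁ * g₂ = g₂ * g₁) (b : h₁ * h₂ = h₂ * h₁)
    (c : g₁ * h₂ = h₂ * g₁) (d : h₁ * g₂ = g₂ * h₁) :
    cm (g₁ * g₂) (h₁ * h₂) = cm g₁ h₁ * cm g₂ h₂ := by
  have a' : Commute g₁ g₂ := a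
  have b' : Commute h₁ h₂ := b
  have c' : Commute g₁ h₂ := c
  have d' : Commute h₁ g₂ := d
  have e : Commute (g₁⁻¹ * h₁⁻¹) (g₂ * h₂ ) :=
    Commute.mul_left (Commute.mul_right a'.inv_left c'.inv_left)
      (Commute.mul_right d'.inv_left b'.inv_left)
  unfold cm
  calc g₁ * g₂ * (h₁ * h₂) * (g₁ * g₂)⁻¹ * (h₁ * h₂)⁻¹
      = g₁ * (g₂ * h₁) * h₂ * (g₂⁻¹ * g₁⁻¹) * (h₂⁻¹ * h₁⁻¹) := by group
    _ = g₁ * (h₁ * g₂) * h₂ * (g₂⁻¹ * g₁⁻¹) * (h₂⁻¹ * h₁⁻¹) := by rw [d'.eq]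
    _ = g₁ * h₁ * (g₂ * h₂) * (g₂⁻¹ * g₁⁻¹) * (h₂⁻¹ * h₁⁻¹) := by group
    _ = g₁ * h₁ * (g₂ * h₂) * (g₁⁻¹ * g₂⁻¹) * (h₁⁻¹ * h₂⁻¹) := by
        rw [(a'.inv_inv).eq, (b'.inv_inv).eq]
    _ = g₁ * h₁ * (g₂ * h₂) * g₁⁻¹ * (g₂⁻¹ * h₁⁻¹) * h₂⁻¹ := by group
    _ = g₁ * h₁ * (g₂ * h₂) * g₁⁻¹ * (h₁⁻¹ * g₂⁻¹) * h₂⁻¹ := by rw [(d'.inv_inv).eq]
    _ = g₁ * h₁ * ((g₂ * h₂) * (g₁⁻¹ * h₁⁻¹)) * g₂⁻¹ * h₂⁻¹ := by group
    _ = g₁ * h₁ * ((g₁⁻¹ * h₁⁻¹) * (g₂ * h₂)) * g₂⁻¹ * h₂⁻¹ := by rw [e.eq]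
    _ = _ := by group

lemma cm_conj (x g h : G) : x * cm g h * x⁻¹ = cm (x * g * x⁻¹) (x * h * x⁻¹) := by
  unfold cm; group

/-- The intersection is given by commutators. -/
lemma splits_cm {E F T T' : Event Φ} (h : Splits E F T T') {a b c x y : ι}
    (hn : [a, b, c, x, y].Nodup) :
    T (cyc a b c) = cm (E (cyc a b x)) (F (cyc a c y)) := by
  simp only [List.nodup_cons, List.mem_cons, List.not_mem_nil, or_false, not_or,
    not_false_eq_true, List.nodup_nil, and_true] at hn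
  obtain ⟨⟨hab, hac, hax, hay⟩, ⟨hbc, hbx, hby⟩, ⟨hcx, hcy⟩, hxy⟩ := hn
  have t1 := cyc_three hab hax hbx
  have t2 := cyc_three hac hay hcy
  have t3 := cyc_three hab hac hbc
  set τ := cyc a b x with hτ
  set ρ := cyc a c y with hρ
  have e0 : τ * (ρ * τ⁻¹ * ρ⁻¹) = cyc a b c := by
    rw [← cyc_commutator hab hac hay hbc hbx hby hcx hcy hxy, ← hτ, ← hρ]
    simp only [mul_assoc]
  have e1 : T (cyc a b c) = T τ * (F ρ * (T τ)⁻¹ * (F ρ)⁻¹) := by
    rw [← T.inv t1, h.le ρ τ⁻¹ t2 t1.inv, T.mul _ _ t1 (IsThreeCycle.conj t1.inv ρ)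
      (by rw [e0]; exact t3), e0]
  have e2 := h.perp τ τ t1 t1
  have e3 := h.perpK τ ρ t1 t2
  rw [e1, h.eq τ t1]
  unfold cm
  calc T τ * (F ρ * (T τ)⁻¹ * (F ρ)⁻¹)
      = T τ * (F ρ * T' τ) * (T' τ)⁻¹ * (T τ)⁻¹ * (F ρ)⁻¹ := by group
    _ = T τ * (T' τ * F ρ) * (T' τ)⁻¹ * (T τ)⁻¹ * (F ρ)⁻¹ := by rw [e3]
    _ = _ := by group

/-- The family of commutators. -/
noncomputable def meetFam (E F : Event Φ) (σ : Perm ι) : G := by
  classical
  exact if h : ∃ p : ι × ι × ι × ι × ι, [p.1, p.2.1, p.2.2.1, p.2.2.2.1, p.2.2.2.2].Nodup ∧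
      σ = cyc p.1 p.2.1 p.2.2.1 then
    cm (E (cyc h.choose.1 h.choose.2.1 h.choose.2.2.2.1))
      (F (cyc h.choose.1 h.choose.2.2.1 h.choose.2.2.2.2)) else 1

lemma exists_five {σ : Perm ι} (hσ : σ.IsThreeCycle) (I : Finset ι) (hI : σ.support ⊆ I)
    (h5 : 5 ≤ I.card) : ∃ a b c x y : ι, [a, b, c, x, y].Nodup ∧ σ = cyc a b c ∧
      a ∈ I ∧ b ∈ I ∧ c ∈ I ∧ x ∈ I ∧ y ∈ I := by
  obtain ⟨a, b, c, hab, hac, hbc, rfl⟩ := exists_cyc hσ
  rw [cyc_support hab hac hbc] at hI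
  have h : 2 ≤ (I \ {a, b, c}).card := by
    have := Finset.card_sdiff_of_subset hI
    have h3 : ({a, b, c} : Finset ι).card = 3 := Finset.card_eq_three.mpr
      ⟨a, b, c, hab, hac, hbc, rfl⟩
    omega
  obtain ⟨D, hD, hD2⟩ := Finset.exists_subset_card_eq h
  obtain ⟨x, y, hxy, rfl⟩ := Finset.card_eq_two.mp hD2
  have hx := hD (show x ∈ ({x, y} : Finset ι) by simp)
  have hy := hD (show y ∈ ({x, y} : Finset ι) by simp)
  simp only [Finset.mem_sdiff, Finset.mem_insert, Finset.mem_singleton, not_or] at hx hy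
  refine ⟨a, b, c, x, y, ?_, rfl, hI (by simp), hI (by simp), hI (by simp), hx.1, hy.1⟩
  simp only [List.nodup_cons, List.mem_cons, List.not_mem_nil, or_false, not_or,
    not_false_eq_true, List.nodup_nil, and_true]
  exact ⟨⟨hab, hac, Ne.symm hx.2.1, Ne.symm hy.2.1⟩, ⟨hbc, Ne.symm hx.2.2.1, Ne.symm hy.2.2.1⟩,
    ⟨Ne.symm hx.2.2.2, Ne.symm hy.2.2.2⟩, hxy⟩

lemma meetFam_exists (E F : Event Φ) {σ : Perm ι} (hσ : σ.IsThreeCycle) :
    ∃ a b c x y : ι, [a, b, c, x, y].Nodup ∧ σ = cyc a b c ∧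
      meetFam E F σ = cm (E (cyc a b x)) (F (cyc a c y)) := by
  classical
  have hcard := Φ.card
  have h : ∃ p : ι × ι × ι × ι × ι, [p.1, p.2.1, p.2.2.1, p.2.2.2.1, p.2.2.2.2].Nodup ∧
      σ = cyc p.1 p.2.1 p.2.2.1 := by
    obtain ⟨a, b, c, x, y, h1, h2, _⟩ := exists_five hσ Finset.univ (Finset.subset_univ _)
      (by rw [Finset.card_univ]; omega)
    exact ⟨(a, b, c, x, y), h1, h2⟩
  refine ⟨h.choose.1, h.choose.2.1, h.choose.2.2.1, h.choose.2.2.2.1, h.choose.2.2.2.2,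
    h.choose_spec.1, h.choose_spec.2, ?_⟩
  unfold meetFam
  rw [dif_pos h]

section E2

variable {E F K T T' E₁ E₂ F₁ F₂ : Event Φ}

/-- five-element supports -/
lemma cm_mem (E F : Event Φ) {a b c x y : ι} (hn : [a, b, c, x, y].Nodup) {I : Finset ι}
    (ha : a ∈ I) (hb : b ∈ I) (hc : c ∈ I) (hx : x ∈ I) (hy : y ∈ I) :
    cm (E (cyc a b x)) (F (cyc a c y)) ∈ Φ.S I := by
  have hn' := hn
  simp only [List.nodup_cons, List.mem_cons, List.not_mem_nil, or_false, not_or,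
    not_false_eq_true, List.nodup_nil, and_true] at hn
  obtain ⟨⟨hab, hac, hax, hay⟩, ⟨hbc, hbx, hby⟩, ⟨hcx, hcy⟩, hxy⟩ := hn
  have h5 : 5 ≤ I.card := by
    have : ([a, b, c, x, y].toFinset) ⊆ I := by
      intro z hz
      simp only [List.mem_toFinset, List.mem_cons, List.not_mem_nil, or_false] at hz
      rcases hz with rfl | rfl | rfl | rfl | rfl <;> assumption
    have h2 := Finset.card_le_card this
    rw [List.toFinset_card_of_nodup hn'] at h2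
    simpa using h2
  have m1 : E (cyc a b x) ∈ Φ.S I := by
    apply E.supp _ (cyc_three hab hax hbx) I _ h5
    rw [cyc_support hab hax hbx]
    intro z hz
    simp only [Finset.mem_insert, Finset.mem_singleton] at hz
    rcases hz with rfl | rfl | rfl <;> assumption
  have m2 : F (cyc a c y) ∈ Φ.S I := by
    apply F.supp _ (cyc_three hac hay hcy) I _ h5
    rw [cyc_support hac hay hcy]
    intro z hz
    simp only [Finset.mem_insert, Finset.mem_singleton] at hz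
    rcases hz with rfl | rfl | rfl <;> assumption
  exact mul_mem (mul_mem (mul_mem m1 m2) (inv_mem m1)) (inv_mem m2)

/-- product formula for the commutators -/
lemma cm_split (hEF : Splits E F T T') (hEK : Splits E K E₁ E₂) (hFK : Splits F K F₁ F₂)
    {a b c x y : ι} (hn : [a, b, c, x, y].Nodup) :
    cm (E₁ (cyc a b x)) (F₁ (cyc a c y)) * cm (E₂ (cyc a b x)) (F₂ (cyc a c y))
      = T (cyc a b c) := by
  rw [splits_cm hEF hn]
  simp only [List.nodup_cons, List.mem_cons, List.not_mem_nil, or_false, not_or,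
    not_false_eq_true, List.nodup_nil, and_true] at hn
  obtain ⟨⟨hab, hac, hax, hay⟩, ⟨hbc, hbx, hby⟩, ⟨hcx, hcy⟩, hxy⟩ := hn
  have t1 := cyc_three hab hax hbx
  have t2 := cyc_three hac hay hcy
  rw [hEK.eq _ t1, hFK.eq _ t2]
  symm
  apply cm_mul
  · exact hEK.perp _ _ t1 t1
  · exact hFK.perp _ _ t2 t2
  · exact perp_of_le_perp hEK.le hFK.perpK _ _ t1 t2
  · exact perp_of_le_perp hFK.le hEK.perpK _ _ t2 t1

/-- Elements of `E₁ ≤ K` commute with the complement of `K`. -/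
lemma le_comm_compl (hE : Le E₁ K) {σ τ : Perm ι} (hσ : σ.IsThreeCycle) (hτ : τ.IsThreeCycle) :
    (K σ)⁻¹ * Φ.c σ * E₁ τ = E₁ τ * ((K σ)⁻¹ * Φ.c σ) := by
  have h := perp_sub_of_le hE (le_const K) τ σ hτ hσ
  rw [sub_apply, const_apply hσ] at h
  exact h.symm

variable (hEF : Splits E F T T') (hEK : Splits E K E₁ E₂) (hFK : Splits F K F₁ F₂)
include hEF hEK hFK

lemma cm_unique {a b c x y a' b' c' x' y' : ι} (hn : [a, b, c, x, y].Nodup)
    (hn' : [a', b', c', x', y'].Nodup) (heq : cyc a b c = cyc a' b' c') :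
    cm (E₁ (cyc a b x)) (F₁ (cyc a c y)) = cm (E₁ (cyc a' b' x')) (F₁ (cyc a' c' y')) ∧
    cm (E₂ (cyc a b x)) (F₂ (cyc a c y)) = cm (E₂ (cyc a' b' x')) (F₂ (cyc a' c' y')) := by
  have hcard := Φ.card
  have p1 := cm_split hEF hEK hFK hn
  have p2 := cm_split hEF hEK hFK hn'
  rw [heq] at p1
  have hnn := hn
  have hnn' := hn'
  simp only [List.nodup_cons, List.mem_cons, List.not_mem_nil, or_false, not_or,
    not_false_eq_true, List.nodup_nil, and_true] at hn hn'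
  obtain ⟨⟨hab, hac, hax, hay⟩, ⟨hbc, hbx, hby⟩, ⟨hcx, hcy⟩, hxy⟩ := hn
  obtain ⟨⟨hab', hac', hax', hay'⟩, ⟨hbc', hbx', hby'⟩, ⟨hcx', hcy'⟩, hxy'⟩ := hn'
  have s1 := cyc_support hab hac hbc
  have s2 := cyc_support hab' hac' hbc'
  rw [heq, s2] at s1
  set I : Finset ι := {a, b, c} ∪ {x, y, x', y'} with hI
  have hIc : I.card ≤ 7 := by
    have h1 : I.card ≤ ({a, b, c} : Finset ι).card + ({x, y, x', y'} : Finset ι).card :=
      Finset.card_union_le ({a, b, c} : Finset ι) {x, y, x', y'}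
    have h2 : ({a, b, c} : Finset ι).card ≤ 3 := Finset.card_le_three
    have h3 : ({x, y, x', y'} : Finset ι).card ≤ 4 := Finset.card_le_four
    omega
  have ma : a ∈ I := by simp [hI]
  have mb : b ∈ I := by simp [hI]
  have mc : c ∈ I := by simp [hI]
  have mx : x ∈ I := by simp [hI]
  have my : y ∈ I := by simp [hI]
  have mx' : x' ∈ I := by simp [hI]
  have my' : y' ∈ I := by simp [hI]
  have ma' : a' ∈ I := by
    have : a' ∈ ({a', b', c'} : Finset ι) := by simp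
    rw [s1] at this
    exact Finset.mem_union_left _ this
  have mb' : b' ∈ I := by
    have : b' ∈ ({a', b', c'} : Finset ι) := by simp
    rw [s1] at this
    exact Finset.mem_union_left _ this
  have mc' : c' ∈ I := by
    have : c' ∈ ({a', b', c'} : Finset ι) := by simp
    rw [s1] at this
    exact Finset.mem_union_left _ this
  refine decomp_unique K (I := I) (by omega) (cm_mem E₁ F₁ hnn ma mb mc mx my)
    (cm_mem E₁ F₁ hnn' ma' mb' mc' mx' my') ?_ ?_ ?_ ?_ (p1.trans p2.symm)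
  · intro σ hσ
    exact (cm_comm (le_comm_compl hEK.le hσ (cyc_three hab hax hbx))
      (le_comm_compl hFK.le hσ (cyc_three hac hay hcy))).symm
  · intro σ hσ
    exact (cm_comm (le_comm_compl hEK.le hσ (cyc_three hab' hax' hbx'))
      (le_comm_compl hFK.le hσ (cyc_three hac' hay' hcy'))).symm
  · intro σ hσ
    exact (cm_comm (hEK.perpK.symm σ _ hσ (cyc_three hab hax hbx))
      (hFK.perpK.symm σ _ hσ (cyc_three hac hay hcy))).symm
  · intro σ hσ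
    exact (cm_comm (hEK.perpK.symm σ _ hσ (cyc_three hab' hax' hbx'))
      (hFK.perpK.symm σ _ hσ (cyc_three hac' hay' hcy'))).symm

lemma meetFam_one_eq {a b c x y : ι} (hn : [a, b, c, x, y].Nodup) :
    meetFam E₁ F₁ (cyc a b c) = cm (E₁ (cyc a b x)) (F₁ (cyc a c y)) := by
  have hn' := hn
  simp only [List.nodup_cons, List.mem_cons, List.not_mem_nil, or_false, not_or,
    not_false_eq_true, List.nodup_nil, and_true] at hn'
  obtain ⟨a', b', c', x', y', h1, h2, h3⟩ := meetFam_exists E₁ F₁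
    (cyc_three hn'.1.1 hn'.1.2.1 hn'.2.1.1)
  rw [h3]
  exact (cm_unique hEF hEK hFK hn h1 h2).1.symm

lemma meetFam_two_eq {a b c x y : ι} (hn : [a, b, c, x, y].Nodup) :
    meetFam E₂ F₂ (cyc a b c) = cm (E₂ (cyc a b x)) (F₂ (cyc a c y)) := by
  have hn' := hn
  simp only [List.nodup_cons, List.mem_cons, List.not_mem_nil, or_false, not_or,
    not_false_eq_true, List.nodup_nil, and_true] at hn'
  obtain ⟨a', b', c', x', y', h1, h2, h3⟩ := meetFam_exists E₂ F₂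
    (cyc_three hn'.1.1 hn'.1.2.1 hn'.2.1.1)
  rw [h3]
  exact (cm_unique hEF hEK hFK hn h1 h2).2.symm

end E2

end Vale.Agent.P196.Ev
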