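import Vale.Agent.P196.H83.Meet

/-!
Event calculus (P196, block A2), part 3: the two halves of an intersection are events; the
partial Boolean algebra of events.
-/

open Equiv Equiv.Perm Finset

namespace Vale.Agent.P196.Ev

variable {ι : Type*} [DecidableEq ι] [Fintype ι] {G : Type*} [Group G] {Φ : Floors ι G}

/-- The commutator family does not depend on the auxiliary floors. -/
def Good (A B : Event Φ) : Prop := ∀ a b c x y : ι, [a, b, c, x, y].Nodup →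
  meetFam A B (cyc a b c) = cm (A (cyc a b x)) (B (cyc a c y))

lemma meetFam_off (A B : Event Φ) {σ : Perm ι} (hσ : ¬ σ.IsThreeCycle) : meetFam A B σ = 1 := by
  classical
  unfold meetFam
  rw [dif_neg]
  rintro ⟨⟨a, b, c, x, y⟩, hn, rfl⟩
  simp only [List.nodup_cons, List.mem_cons, List.not_mem_nil, or_false, not_or,
    not_false_eq_true, List.nodup_nil, and_true] at hn
  exact hσ (cyc_three hn.1.1 hn.1.2.1 hn.2.1.1)

omit [DecidableEq ι] [Fintype ι] in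
lemma nodup_map {a b c x y : ι} (hn : [a, b, c, x, y].Nodup) (w : Perm ι) :
    [w a, w b, w c, w x, w y].Nodup := by
  have := hn.map w.injective
  simpa using this

lemma Good.conj {A B : Event Φ} (h : Good A B) (k : G) (w : Perm ι)
    (hA : ∀ τ : Perm ι, τ.IsThreeCycle → k * A τ * k⁻¹ = A (w * τ * w⁻¹))
    (hB : ∀ τ : Perm ι, τ.IsThreeCycle → k * B τ * k⁻¹ = B (w * τ * w⁻¹))
    {τ : Perm ι} (hτ : τ.IsThreeCycle) :
    k * meetFam A B τ * k⁻¹ = meetFam A B (w * τ * w⁻¹) := by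
  obtain ⟨a, b, c, x, y, hn, rfl, he⟩ := meetFam_exists A B hτ
  rw [he, cm_conj]
  have hn' := nodup_map hn w
  rw [cyc_conj, h _ _ _ _ _ hn']
  simp only [List.nodup_cons, List.mem_cons, List.not_mem_nil, or_false, not_or,
    not_false_eq_true, List.nodup_nil, and_true] at hn
  obtain ⟨⟨hab, hac, hax, hay⟩, ⟨hbc, hbx, hby⟩, ⟨hcx, hcy⟩, hxy⟩ := hn
  rw [hA _ (cyc_three hab hax hbx), hB _ (cyc_three hac hay hcy), cyc_conj, cyc_conj]

lemma meetFam_comm (A B : Event Φ) (k : G)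
    (hA : ∀ τ : Perm ι, τ.IsThreeCycle → k * A τ = A τ * k)
    (hB : ∀ τ : Perm ι, τ.IsThreeCycle → k * B τ = B τ * k)
    {τ : Perm ι} (hτ : τ.IsThreeCycle) :
    k * meetFam A B τ = meetFam A B τ * k := by
  obtain ⟨a, b, c, x, y, hn, rfl, he⟩ := meetFam_exists A B hτ
  simp only [List.nodup_cons, List.mem_cons, List.not_mem_nil, or_false, not_or,
    not_false_eq_true, List.nodup_nil, and_true] at hn
  obtain ⟨⟨hab, hac, hax, hay⟩, ⟨hbc, hbx, hby⟩, ⟨hcx, hcy⟩, hxy⟩ := hn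
  rw [he]
  exact cm_comm (hA _ (cyc_three hab hax hbx)) (hB _ (cyc_three hac hay hcy))

lemma Good.supp {A B : Event Φ} (h : Good A B) {τ : Perm ι} (hτ : τ.IsThreeCycle) {I : Finset ι}
    (hI : τ.support ⊆ I) (h5 : 5 ≤ I.card) : meetFam A B τ ∈ Φ.S I := by
  obtain ⟨a, b, c, x, y, hn, rfl, ha, hb, hc, hx, hy⟩ := exists_five hτ I hI h5
  rw [h _ _ _ _ _ hn]
  exact cm_mem A B hn ha hb hc hx hy

/-- The event given by a good commutator family. -/
noncomputable def meetEvent (A B : Event Φ) (h : Good A B)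
    (hmul : ∀ σ τ : Perm ι, σ.IsThreeCycle → τ.IsThreeCycle → (σ * τ).IsThreeCycle →
      meetFam A B σ * meetFam A B τ = meetFam A B (σ * τ))
    (hconj : ∀ σ τ : Perm ι, σ.IsThreeCycle → τ.IsThreeCycle →
      meetFam A B σ * meetFam A B τ * (meetFam A B σ)⁻¹ = meetFam A B (σ * τ * σ⁻¹)) :
    Event Φ where
  t := meetFam A B
  off := fun _ hσ => meetFam_off A B hσ
  mul := hmul
  conj := hconj
  equiv := fun w hw _ hτ =>
    h.conj (Φ.c w) w (fun τ hτ => A.equiv w hw τ hτ) (fun τ hτ => B.equiv w hw τ hτ) hτ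
  supp := fun _ hτ _ hI h5 => h.supp hτ hI h5

section

variable {E F K T T' E₁ E₂ F₁ F₂ : Event Φ}
variable (hEF : Splits E F T T') (hEK : Splits E K E₁ E₂) (hFK : Splits F K F₁ F₂)
include hEF hEK hFK

lemma good_one : Good E₁ F₁ := fun _ _ _ _ _ hn => meetFam_one_eq hEF hEK hFK hn
lemma good_two : Good E₂ F₂ := fun _ _ _ _ _ hn => meetFam_two_eq hEF hEK hFK hn

lemma T_eq {τ : Perm ι} (hτ : τ.IsThreeCycle) : T τ = meetFam E₁ F₁ τ * meetFam E₂ F₂ τ := by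
  obtain ⟨a, b, c, x, y, hn, rfl, -⟩ := exists_five hτ Finset.univ (Finset.subset_univ _)
    (by rw [Finset.card_univ]; have := Φ.card; omega)
  rw [meetFam_one_eq hEF hEK hFK hn, meetFam_two_eq hEF hEK hFK hn]
  exact (cm_split hEF hEK hFK hn).symm

omit hEF in
lemma halves_comm {σ τ : Perm ι} (hσ : σ.IsThreeCycle) (hτ : τ.IsThreeCycle) :
    meetFam E₁ F₁ σ * meetFam E₂ F₂ τ = meetFam E₂ F₂ τ * meetFam E₁ F₁ σ := by
  symm
  apply meetFam_comm _ _ _ _ _ hσ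
  · intro ρ hρ
    symm
    apply meetFam_comm _ _ _ _ _ hτ
    · exact fun π hπ => hEK.perp ρ π hρ hπ
    · exact fun π hπ => perp_of_le_perp hEK.le hFK.perpK ρ π hρ hπ
  · intro ρ hρ
    symm
    apply meetFam_comm _ _ _ _ _ hτ
    · exact fun π hπ => perp_of_le_perp hFK.le hEK.perpK ρ π hρ hπ
    · exact fun π hπ => hFK.perp ρ π hρ hπ

omit hEF in
lemma one_comm_compl {σ τ : Perm ι} (hσ : σ.IsThreeCycle) (hτ : τ.IsThreeCycle) :
    meetFam E₁ F₁ τ * ((K σ)⁻¹ * Φ.c σ) = (K σ)⁻¹ * Φ.c σ * meetFam E₁ F₁ τ := by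
  symm
  apply meetFam_comm _ _ _ _ _ hτ
  · exact fun ρ hρ => le_comm_compl hEK.le hσ hρ
  · exact fun ρ hρ => le_comm_compl hFK.le hσ hρ

omit hEF in
lemma two_comm {σ τ : Perm ι} (hσ : σ.IsThreeCycle) (hτ : τ.IsThreeCycle) :
    meetFam E₂ F₂ τ * K σ = K σ * meetFam E₂ F₂ τ := by
  symm
  apply meetFam_comm _ _ _ _ _ hτ
  · exact fun ρ hρ => hEK.perpK.symm σ ρ hσ hρ
  · exact fun ρ hρ => hFK.perpK.symm σ ρ hσ hρ

end

lemma comm_mul_right {x g h : G} (h1 : g * x = x * g) (h2 : h * x = x * h) :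
    g * h * x = x * (g * h) := by
  rw [mul_assoc, h2, ← mul_assoc, h1, mul_assoc]

lemma comm_inv_right {x g : G} (h1 : g * x = x * g) : g⁻¹ * x = x * g⁻¹ := by
  have : Commute g x := h1
  exact this.inv_left.eq

/-- a set of six floors containing two 3-cycles -/
lemma union_support (σ τ : Perm ι) (hσ : σ.IsThreeCycle) (hτ : τ.IsThreeCycle)
    (hc : 12 ≤ Fintype.card ι) :
    ∃ I : Finset ι, σ.support ⊆ I ∧ τ.support ⊆ I ∧ I.card = 6 := by
  have h1 : (σ.support ∪ τ.support).card ≤ 6 := by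
    have := Finset.card_union_le σ.support τ.support
    rw [hσ.card_support, hτ.card_support] at this
    exact this
  obtain ⟨I, hI, -, hI2⟩ := Finset.exists_subsuperset_card_eq
    (Finset.subset_univ (σ.support ∪ τ.support)) h1 (by rw [Finset.card_univ]; omega)
  exact ⟨I, (Finset.subset_union_left).trans hI, (Finset.subset_union_right).trans hI, hI2⟩

section

variable {E F K T T' E₁ E₂ F₁ F₂ : Event Φ}
variable (hEF : Splits E F T T') (hEK : Splits E K E₁ E₂) (hFK : Splits F K F₁ F₂)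
include hEF hEK hFK

lemma halves_mul {σ τ : Perm ι} (hσ : σ.IsThreeCycle) (hτ : τ.IsThreeCycle)
    (hστ : (σ * τ).IsThreeCycle) :
    meetFam E₁ F₁ σ * meetFam E₁ F₁ τ = meetFam E₁ F₁ (σ * τ) ∧
    meetFam E₂ F₂ σ * meetFam E₂ F₂ τ = meetFam E₂ F₂ (σ * τ) := by
  have hcard := Φ.card
  obtain ⟨I, hI1, hI2, hI3⟩ := union_support σ τ hσ hτ hcard
  have hI4 : (σ * τ).support ⊆ I := by
    refine (support_mul_le σ τ).trans ?_
    intro x hx
    rcases Finset.mem_union.mp hx with h | h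
    · exact hI1 h
    · exact hI2 h
  have g1 := good_one hEF hEK hFK
  refine decomp_unique K (I := I) (by omega)
    (mul_mem (g1.supp hσ hI1 (by omega)) (g1.supp hτ hI2 (by omega)))
    (g1.supp hστ hI4 (by omega)) ?_ ?_ ?_ ?_ ?_
  · exact fun ρ hρ => comm_mul_right (one_comm_compl hEK hFK hρ hσ) (one_comm_compl hEK hFK hρ hτ)
  · exact fun ρ hρ => one_comm_compl hEK hFK hρ hστ
  · exact fun ρ hρ => comm_mul_right (two_comm hEK hFK hρ hσ) (two_comm hEK hFK hρ hτ)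
  · exact fun ρ hρ => two_comm hEK hFK hρ hστ
  · rw [← T_eq hEF hEK hFK hστ, ← T.mul σ τ hσ hτ hστ, T_eq hEF hEK hFK hσ, T_eq hEF hEK hFK hτ]
    have h1 := halves_comm hEK hFK hτ hσ
    calc meetFam E₁ F₁ σ * meetFam E₁ F₁ τ * (meetFam E₂ F₂ σ * meetFam E₂ F₂ τ)
        = meetFam E₁ F₁ σ * (meetFam E₁ F₁ τ * meetFam E₂ F₂ σ) * meetFam E₂ F₂ τ := by group
      _ = meetFam E₁ F₁ σ * (meetFam E₂ F₂ σ * meetFam E₁ F₁ τ) * meetFam E₂ F₂ τ := by rw [h1]
      _ = _ := by group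

lemma halves_conj {σ τ : Perm ι} (hσ : σ.IsThreeCycle) (hτ : τ.IsThreeCycle) :
    meetFam E₁ F₁ σ * meetFam E₁ F₁ τ * (meetFam E₁ F₁ σ)⁻¹ = meetFam E₁ F₁ (σ * τ * σ⁻¹) ∧
    meetFam E₂ F₂ σ * meetFam E₂ F₂ τ * (meetFam E₂ F₂ σ)⁻¹ = meetFam E₂ F₂ (σ * τ * σ⁻¹) := by
  have hcard := Φ.card
  obtain ⟨I, hI1, hI2, hI3⟩ := union_support σ τ hσ hτ hcard
  have hρ : (σ * τ * σ⁻¹).IsThreeCycle := IsThreeCycle.conj hτ σ
  have hI4 : (σ * τ * σ⁻¹).support ⊆ I := by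
    refine (support_mul_le (σ * τ) σ⁻¹).trans ?_
    intro x hx
    rcases Finset.mem_union.mp hx with h | h
    · rcases Finset.mem_union.mp (support_mul_le σ τ h) with h | h
      · exact hI1 h
      · exact hI2 h
    · rw [support_inv] at h
      exact hI1 h
  have g1 := good_one hEF hEK hFK
  refine decomp_unique K (I := I) (by omega)
    (mul_mem (mul_mem (g1.supp hσ hI1 (by omega)) (g1.supp hτ hI2 (by omega)))
      (inv_mem (g1.supp hσ hI1 (by omega))))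
    (g1.supp hρ hI4 (by omega)) ?_ ?_ ?_ ?_ ?_
  · exact fun ρ hρ => comm_mul_right (comm_mul_right (one_comm_compl hEK hFK hρ hσ)
      (one_comm_compl hEK hFK hρ hτ)) (comm_inv_right (one_comm_compl hEK hFK hρ hσ))
  · exact fun π hπ => one_comm_compl hEK hFK hπ hρ
  · exact fun ρ hρ => comm_mul_right (comm_mul_right (two_comm hEK hFK hρ hσ)
      (two_comm hEK hFK hρ hτ)) (comm_inv_right (two_comm hEK hFK hρ hσ))
  · exact fun π hπ => two_comm hEK hFK hπ hρ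
  · rw [← T_eq hEF hEK hFK hρ, ← T.conj σ τ hσ hτ, T_eq hEF hEK hFK hσ, T_eq hEF hEK hFK hτ]
    have h1 : Commute (meetFam E₁ F₁ τ) (meetFam E₂ F₂ σ) := halves_comm hEK hFK hτ hσ
    have h2 : Commute (meetFam E₁ F₁ σ) (meetFam E₂ F₂ σ) := halves_comm hEK hFK hσ hσ
    have h3 : Commute (meetFam E₁ F₁ σ) (meetFam E₂ F₂ τ) := halves_comm hEK hFK hσ hτ
    calc meetFam E₁ F₁ σ * meetFam E₁ F₁ τ * (meetFam E₁ F₁ σ)⁻¹ *
          (meetFam E₂ F₂ σ * meetFam E₂ F₂ τ * (meetFam E₂ F₂ σ)⁻¹)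
        = meetFam E₁ F₁ σ * meetFam E₁ F₁ τ * ((meetFam E₁ F₁ σ)⁻¹ *
          (meetFam E₂ F₂ σ * meetFam E₂ F₂ τ)) * (meetFam E₂ F₂ σ)⁻¹ := by group
      _ = meetFam E₁ F₁ σ * meetFam E₁ F₁ τ * ((meetFam E₂ F₂ σ * meetFam E₂ F₂ τ) *
          (meetFam E₁ F₁ σ)⁻¹) * (meetFam E₂ F₂ σ)⁻¹ := by
          rw [((h2.inv_left).mul_right (h3.inv_left)).eq]
      _ = meetFam E₁ F₁ σ * (meetFam E₁ F₁ τ * meetFam E₂ F₂ σ) * meetFam E₂ F₂ τ *
          ((meetFam E₁ F₁ σ)⁻¹ * (meetFam E₂ F₂ σ)⁻¹) := by group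
      _ = meetFam E₁ F₁ σ * (meetFam E₂ F₂ σ * meetFam E₁ F₁ τ) * meetFam E₂ F₂ τ *
          ((meetFam E₂ F₂ σ)⁻¹ * (meetFam E₁ F₁ σ)⁻¹) := by rw [h1.eq, h2.inv_inv.eq]
      _ = _ := by group

/-- The first half of an intersection, an event. -/
noncomputable def half₁ : Event Φ := meetEvent E₁ F₁ (good_one hEF hEK hFK)
  (fun _ _ hσ hτ hστ => (halves_mul hEF hEK hFK hσ hτ hστ).1)
  (fun _ _ hσ hτ => (halves_conj hEF hEK hFK hσ hτ).1)

/-- The second half of an intersection, an event. -/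
noncomputable def half₂ : Event Φ := meetEvent E₂ F₂ (good_two hEF hEK hFK)
  (fun _ _ hσ hτ hστ => (halves_mul hEF hEK hFK hσ hτ hστ).2)
  (fun _ _ hσ hτ => (halves_conj hEF hEK hFK hσ hτ).2)

/-- **E2.** If `E`, `F`, `K` are pairwise compatible then `K` is compatible with `E ∩ F`. -/
theorem splits_halves : Splits T K (half₁ hEF hEK hFK) (half₂ hEF hEK hFK) where
  perp := fun σ τ hσ hτ => halves_comm hEK hFK hσ hτ
  eq := fun σ hσ => T_eq hEF hEK hFK hσ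
  le := fun σ τ hσ hτ => (good_one hEF hEK hFK).conj (K σ) σ
    (fun τ hτ => hEK.le σ τ hσ hτ) (fun τ hτ => hFK.le σ τ hσ hτ) hτ
  perpK := fun σ τ hσ hτ => two_comm hEK hFK hτ hσ

end

end Vale.Agent.P196.Ev
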